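import Mathlib.Data.List.Infix
import Mathlib.Data.List.Basic
import Mathlib.Data.Nat.Basic
import Mathlib.Logic.Function.Iterate

/-!
The approximation algorithm for the shortest common superstring (definitions only).

Phase 1 (`tokens`) computes a list of tokens (strings); the number of tokens with a given
beginning `v` is a lower bound for the number of occurrences of `v` in every superstring.
Phase 2 (`layers`) arranges the tokens in closed walks.
Phase 3 (`step`) connects the closed walks to a main walk from the empty string to itself.
-/

namespace Vale.Agent.P333

/-- Strings. -/
abbrev Str := List ℕ

/-! ### Phase 1: tokens -/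

/-- Number of tokens that begin with `v`. -/
def cnt (Z : List Str) (v : Str) : ℕ := Z.countP fun z => decide (v <+: z)

/-- Number of tokens whose tail begins with `v`. -/
def cntT (Z : List Str) (v : Str) : ℕ := Z.countP fun z => decide (v <+: z.tail)

/-- The letter at position `l - k` of the `p`-periodic extension of `v` in both directions. -/
def ext (v : Str) (p k l : ℕ) : ℕ := v.getD ((l + k * (p - 1)) % p) 0

/-- The token `z`, placed at position `-k` of the `p`-periodic extension of `v`, disagrees with
it at its first letter, agrees with it from there up to position `j` (excluded), and
disagrees with it once more. -/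
def hidB (v : Str) (p j : ℕ) (z : Str) (k : ℕ) : Bool :=
  decide (1 ≤ k) && decide (k + j ≤ z.length) && decide (z.getD 0 0 ≠ ext v p k 0) &&
    ((List.range z.length).all fun l =>
      decide (l = 0) || decide (k + j ≤ l) || decide (z.getD l 0 = ext v p k l)) &&
    ((List.range z.length).any fun l => decide (1 ≤ l) && decide (z.getD l 0 ≠ ext v p k l))

/-- Number of hidden occurrences. -/
def hid (Z : List Str) (v : Str) (p j : ℕ) : ℕ :=
  (Z.map fun z => (List.range z.length).countP (hidB v p j z)).sum

/-- The lower bound for the number of occurrences of `u` that comes from a string `v` of which
`u` is a proper border. -/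
def rule (Z : List Str) (u v : Str) : ℕ :=
  if u.length < v.length ∧ u <+: v ∧ v.drop (v.length - u.length) <+: v ∧
      hid Z v (v.length - u.length) v.length < cnt Z v then
    hid Z v (v.length - u.length) u.length + (cnt Z v - hid Z v (v.length - u.length) v.length) + 1
  else 0

/-- Required number of tokens that begin with `u`. -/
def req (Z : List Str) (u v : Str) : ℕ := max (max 1 (cntT Z u)) (rule Z u v)

/-- The nonempty substrings of the members of `S`, longest first (with repetitions). -/
def subs (S : List Str) : List Str :=
  (List.range S.flatten.length).reverse.flatMap fun n =>
    S.flatMap fun s =>
      ((List.range s.length).map fun i => (s.drop i).take (n + 1)).filter fun w =>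
        decide (w.length = n + 1)

/-- All pairs of substrings. -/
def pairs (S : List Str) : List (Str × Str) :=
  (subs S).flatMap fun u => (subs S).map fun v => (u, v)

/-- Add the missing tokens. -/
def addTok (Z : List Str) (uv : Str × Str) : List Str :=
  Z ++ List.replicate (req Z uv.1 uv.2 - cnt Z uv.1) uv.1

/-- The tokens, longest first. -/
def tokens (S : List Str) : List Str := (pairs S).foldl addTok []

/-! ### Walks -/

/-- `Walk a L b`: the tokens `L` lead from `a` to `b`: extend the current string to the next
token, delete its first letter, and so on; at the end extend the current string to `b`. -/
def Walk : Str → List Str → Str → Prop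
  | a, [], b => a <+: b
  | a, z :: L, b => a <+: z ∧ Walk z.tail L b

/-- Boolean test for `Walk [] L []`. -/
def walkB (L : List Str) : Bool :=
  (([] :: L.map List.tail).zip (L ++ [[]])).all fun p => decide (p.1 <+: p.2)

/-! ### Phase 2: layers -/

/-- The end of a path. -/
def endOf (B : List Str) : Str := (B.getLast?.getD []).tail

/-- `B'` can follow `B`. -/
def fits (B B' : List Str) : Bool := decide (endOf B <+: B'.headD [])

/-- Put `B` in front of the first member of `P` that can follow it. -/
def glue (B : List Str) (P : List (List Str)) : List (List Str) :=
  P.takeWhile (fun B' => !fits B B') ++
    ((P.dropWhile (fun B' => !fits B B')).take 1).map (fun B' => B ++ B') ++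
    (P.dropWhile (fun B' => !fits B B')).tail

/-- One step: close the first open path, or glue it to another open path. The state consists of
the open paths and the closed walks. -/
def layStep (st : List (List Str) × List (List Str)) : List (List Str) × List (List Str) :=
  match st.1 with
  | [] => st
  | B :: P => if fits B B then (P, B :: st.2) else (glue B P, st.2)

/-- The layers. -/
def layers (Z : List Str) : List (List Str) :=
  (layStep^[Z.length] (Z.map fun z => [z], [])).2

/-! ### Phase 3: connecting the layers -/

/-- All ways to insert a rotation of `L` in `A`. -/
def splices (A L : List Str) : List (List Str) :=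
  (List.range (A.length + 1)).flatMap fun i =>
    (List.range L.length).map fun k => A.take i ++ (L.drop k ++ L.take k) ++ A.drop i

/-- Insert a rotation of `L` in `A`, if the result is a walk. -/
def spl (A L : List Str) : Option (List Str) := (splices A L).find? walkB

/-- One step of the absorbing pass. -/
def absStep (st : List Str × List (List Str)) (L : List Str) : List Str × List (List Str) :=
  match spl st.1 L with
  | none => (st.1, L :: st.2)
  | some A' => (A', st.2)

/-- Insert in `A` the members of `K` that fit; return the new walk and the other members. -/
def absorb (A : List Str) (K : List (List Str)) : List Str × List (List Str) :=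
  K.foldl absStep (A, [])

/-- The loop that deletes the first `c` letters of `g`. -/
def loop (gc : Str × ℕ) : List Str := (List.range gc.2).map fun l => gc.1.drop l

/-- The first `n` letters of the periodic word of `L` read from position `k`. -/
def word (L : List Str) (k n : ℕ) : Str :=
  (List.range n).map fun l => (L.getD ((k + l) % L.length) []).headD 0

/-- Candidate loops. -/
def cands (K : List (List Str)) : List (Str × ℕ) :=
  K.flatMap fun L => (List.range L.length).flatMap fun k =>
    (List.range (K.flatten.length + K.flatten.flatten.length + 1)).flatMap fun n =>
      (List.range n).map fun c => (word L k n, c + 1)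

/-- Result of a move. -/
def res (st : List Str × List (List Str)) (gc : Str × ℕ) : List Str × List (List Str) :=
  absorb ((spl st.1 (loop gc)).getD st.1) st.2

/-- Validity of a move. -/
def ok (st : List Str × List (List Str)) (gc : Str × ℕ) : Bool :=
  decide (gc.1.drop gc.2 <+: gc.1) && (spl st.1 (loop gc)).isSome &&
    decide (gc.2 + (res st gc).2.flatten.length ≤ st.2.flatten.length)

/-- Make the first valid move, if there is one. -/
def step (st : List Str × List (List Str)) : List Str × List (List Str) :=
  match (cands st.2).find? (ok st) with
  | none => st
  | some gc => res st gc

/-- The algorithm. -/
def approx (S : List Str) : Str :=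
  (step^[(tokens S).length] ([], layers (tokens S))).1.map fun z => z.headD 0

end Vale.Agent.P333
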