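import Vale.Agent.P333.Defs
import Vale.Agent.Lib.PolyTime.TypedTM2
import Vale.Agent.Lib.PolyTime.Lists3
import Vale.Agent.Lib.PolyTime.NatArith2

/-!
Bridge between the statement (`HasApproximation`) and the typed polynomial time library, and basic
facts on `opt`.
-/

namespace Vale.Agent.P333

open Vale.Agent.Lib.PolyTime

theorem pr_eq_flatMap (x y : List Bool) :
    pr x y = (x.flatMap fun b => [true, b]) ++ false :: y := by
  induction x with
  | nil => rfl
  | cons b x ih => simp [pr, ih]

theorem codeList_eq_enc {α : Type} [Enc α] (c : α → List Bool) (hc : ∀ a, c a = enc a)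
    (l : List α) : codeList c l = enc l := by
  induction l with
  | nil => rfl
  | cons a l ih =>
    rw [enc_cons, pr_eq_flatMap, ← ih, ← hc]
    simp [codeList]

theorem codeString_eq : codeString = (enc : List ℕ → List Bool) :=
  funext fun l => codeList_eq_enc _ (fun _ => rfl) l

theorem codeInstance_eq : codeInstance = (enc : List (List ℕ) → List Bool) :=
  funext fun l => codeList_eq_enc _ (fun a => congrFun codeString_eq a) l

theorem isSuperstring_flatten (S : List (List ℕ)) : IsSuperstring S S.flatten :=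
  fun _ hs => List.infix_of_mem_flatten hs

/-- There is an optimal superstring. -/
theorem exists_opt (S : List (List ℕ)) : ∃ T, IsSuperstring S T ∧ T.length = opt S :=
  Nat.sInf_mem (s := {n | ∃ T, IsSuperstring S T ∧ T.length = n})
    ⟨_, S.flatten, isSuperstring_flatten S, rfl⟩

theorem opt_le {S : List (List ℕ)} {T : List ℕ} (h : IsSuperstring S T) : opt S ≤ T.length :=
  Nat.sInf_le ⟨T, h, rfl⟩

/-- A function of the typed polynomial time library whose value is a superstring of length at most
`ρ` times the length of every superstring is a `ρ`-approximation. -/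
theorem hasApproximation_of_PT {ρ : ℝ} {f : List (List ℕ) → List ℕ} (hf : PT ∅ f)
    (h1 : ∀ S, IsSuperstring S (f S))
    (h2 : ∀ S T, IsSuperstring S T → ((f S).length : ℝ) ≤ ρ * T.length) :
    HasApproximation ρ := by
  refine ⟨f, ?_, fun S => ⟨h1 S, ?_⟩⟩
  · rw [codeString_eq, codeInstance_eq]
    exact hf.exists_tm2
  · obtain ⟨T, hT, hl⟩ := exists_opt S
    rw [← hl]
    exact h2 S T hT

theorem hasApproximation_two_of_PT {f : List (List ℕ) → List ℕ} (hf : PT ∅ f)
    (h1 : ∀ S, IsSuperstring S (f S))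
    (h2 : ∀ S T, IsSuperstring S T → (f S).length ≤ 2 * T.length) :
    HasApproximation 2 :=
  hasApproximation_of_PT hf h1 fun S T hT => by exact_mod_cast h2 S T hT

theorem HasApproximation.mono {ρ ρ' : ℝ} (h : HasApproximation ρ) (hρ : ρ ≤ ρ') :
    HasApproximation ρ' := by
  obtain ⟨f, hf, h⟩ := h
  refine ⟨f, hf, fun S => ⟨(h S).1, (h S).2.trans ?_⟩⟩
  exact mul_le_mul_of_nonneg_right hρ (Nat.cast_nonneg _)

theorem rhoStar_le {ρ : ℝ} (h1 : 1 ≤ ρ) (h : HasApproximation ρ) : rhoStar ≤ ρ :=
  csInf_le ⟨1, fun _ hx => hx.1⟩ ⟨h1, h⟩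

/-- The final statement, from a `2`-approximation. -/
theorem final_of_two (h : HasApproximation 2) :
    (∀ ρ : ℝ, 2 ≤ ρ → HasApproximation ρ) ∧ rhoStar ≤ 2 :=
  ⟨fun _ hρ => h.mono hρ, rhoStar_le (by norm_num) h⟩

end Vale.Agent.P333
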