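import Vale.Agent.P333.Geo

/-!
The main lemma: as long as some token of an unconnected layer is not the beginning of a token of a
connected layer, there is a valid move.
-/

namespace Vale.Agent.P333

namespace Geo

variable {ι G : Type} [DecidableEq G] (Γ : Geo ι G) (K : Finset G) (NA : List ℕ → Prop)

/-- There is a valid move. -/
def HasMove : Prop := ∃ t0 i j c D, Γ.Move K NA t0 i j c D

variable {Γ K NA}

/-- A move that starts at the empty string. -/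
theorem hasMove_eps (h0 : NA []) {t0 : ι} (ht0 : Γ.lay t0 ∈ K) {i j : ℤ} (hij : i < j)
    {D : Finset G} (hD : D ⊆ K) (hc : j - i ≤ ((∑ γ ∈ D, Γ.q γ : ℕ) : ℤ))
    (ht : ∀ γ ∈ D, ∃ t a b, Γ.lay t = γ ∧ Γ.Pt t a b ∧
      (∀ n, a ≤ n → n < b → Γ.y t n = Γ.y t0 n) ∧
      ((a = i ∧ i ≤ b ∧ b ≤ j) ∨ (b = j ∧ i ≤ a ∧ a ≤ j))) : Γ.HasMove K NA := by
  have e : (((j - i).toNat : ℕ) : ℤ) = j - i := Int.toNat_of_nonneg (by omega)
  refine ⟨t0, i, j, (j - i).toNat, D, ht0, by omega, by omega, fun n h1 h2 => by omega,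
    ⟨t0, ht0, ?_⟩, ⟨i, by omega, by omega, by rwa [seg_self]⟩, hD, by omega, fun γ hγ => ?_⟩
  · have := Γ.g_gt t0 0
    omega
  · obtain ⟨t, a, b, h1, h2, h3, h4⟩ := ht γ hγ
    exact ⟨t, a, b, h1, h2, h3, by omega⟩

/-- If there is no move, the nodes of an unconnected layer are longer than its size. -/
theorem long_of_not (h0 : NA []) (hno : ¬ Γ.HasMove K NA) {t : ι} (ht : Γ.lay t ∈ K) {a b : ℤ}
    (h : Γ.Pt t a b) : (Γ.q (Γ.lay t) : ℤ) < b - a := by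
  by_contra hc
  have hq : (0 : ℤ) < Γ.q (Γ.lay t) := by exact_mod_cast Γ.q_pos t
  have h1 := Γ.g_gt t (a - 1)
  have h2 := h.1
  have hsub : ({Γ.lay t} : Finset G) ⊆ K := Finset.singleton_subset_iff.2 ht
  by_cases hab : a < b
  · refine hno (hasMove_eps h0 ht hab hsub (by rw [Finset.sum_singleton]; omega) fun γ hγ => ?_)
    exact ⟨t, a, b, (Finset.mem_singleton.1 hγ).symm, h, fun _ _ _ => rfl, by omega⟩
  · refine hno (hasMove_eps h0 ht (i := a - 1) (j := a) (by omega) hsub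
      (by rw [Finset.sum_singleton]; omega) fun γ hγ => ?_)
    refine ⟨t, a - 1, a, (Finset.mem_singleton.1 hγ).symm, ⟨?_, by omega⟩, fun _ _ _ => rfl,
      by omega⟩
    have := Γ.g_mono t (show a - 1 - 1 ≤ a - 1 by omega)
    omega

section Level

variable {t0 : ι} {p : ℕ} {r : ℤ → ℤ}

omit [DecidableEq G] in
theorem Level.pt (hL : Γ.Level K (Γ.y t0) p r) (i : ℤ) :
    ∃ t, Γ.lay t ∈ K ∧ (∀ n, Γ.y t n = Γ.y t0 n) ∧ Γ.Pt t i (r (i - 1)) := by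
  obtain ⟨t, h1, h2, h3⟩ := hL.on (i - 1)
  refine ⟨t, h1, h2, h3.le, ?_⟩
  rw [← h3]
  exact Γ.g_mono t (by omega)

theorem Level.high (hL : Γ.Level K (Γ.y t0) p r) (h0 : NA []) (hno : ¬ Γ.HasMove K NA) (i : ℤ) :
    i + p < r (i - 1) := by
  obtain ⟨t, h1, h2, h3⟩ := hL.pt i
  have h4 := long_of_not h0 hno h1 h3
  have h5 := hL.p_le t h1 h2
  omega

/-- No node of the main walk lies in the band around the level curve. -/
theorem Level.band (hL : Γ.Level K (Γ.y t0) p r) (ht0 : Γ.lay t0 ∈ K) (h0 : NA [])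
    (hno : ¬ Γ.HasMove K NA) {i j : ℤ} (h1 : r (i - 1) - p ≤ j) (h2 : j ≤ r (i - 1) + p) :
    ¬ NA (seg (Γ.y t0) i j) := by
  intro hA
  obtain ⟨t, h3, h4, h5⟩ := hL.pt i
  have h6 := hL.high h0 hno i
  have h7 := hL.p_le t h3 h4
  have h8 := hL.p_pos
  refine hno ⟨t0, i, min j (r (i - 1)) + p, p, {Γ.lay t}, ht0, h8, by omega,
    fun n _ _ => hL.x_per n, ⟨Γ.sh i t, by rwa [Γ.lay_sh], ?_⟩, ⟨j, by omega, by omega, hA⟩,
    Finset.singleton_subset_iff.2 h3, by rwa [Finset.sum_singleton], fun γ hγ => ?_⟩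
  · rw [Γ.g_sh, zero_add]
    have := h5.2
    omega
  · exact ⟨t, i, r (i - 1), (Finset.mem_singleton.1 hγ).symm, h5, fun n _ _ => h4 n, by omega⟩

/-- No exposed run of a connected layer reaches the level curve moved down by the period. -/
theorem Level.not_cov (hL : Γ.Level K (Γ.y t0) p r) (ht0 : Γ.lay t0 ∈ K) (h0 : NA [])
    (hC : ∀ t a b, Γ.lay t ∉ K → Γ.Pt t a b → NA (seg (Γ.y t) a b))
    (hno : ¬ Γ.HasMove K NA) (i : ℤ) : ¬ Γ.Cov K (Γ.y t0) i (r i - p) := by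
  rintro ⟨t, a, b, h1, h2, h3, h4, h5⟩
  have hband : ∀ i' j, a ≤ i' → j ≤ b → Γ.Pt t i' j → r (i' - 1) - p ≤ j → j ≤ r (i' - 1) + p →
      False := by
    intro i' j e1 e2 e3 e4 e5
    refine hL.band ht0 h0 hno e4 e5 ?_
    rw [← seg_congr (x := Γ.y t) fun n n1 n2 => h2.agree n (by omega) (by omega)]
    exact hC t i' j h1 e3
  have hlow := h2.low
  have hstart : Γ.Pt t a (Γ.g t (a - 1)) := ⟨le_rfl, Γ.g_mono t (by omega)⟩
  by_cases hup : r (a - 1) + p < Γ.g t (a - 1)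
  · obtain ⟨i', e1, e2, e3⟩ := hL.free a
    have e4 : r i' ≤ r (a - 1 + p) := hL.mono (by omega)
    rw [hL.r_per] at e4
    have e5 : Γ.g t (a - 1) ≤ Γ.g t i' := Γ.g_mono t (by omega)
    exact e3 ⟨t, a, b, h1, h2, e1, by omega, by omega⟩
  by_cases hdown : r (a - 1) - p ≤ Γ.g t (a - 1)
  · exact hband a _ le_rfl hlow hstart hdown (by omega)
  have hi : r (i - 1) ≤ r i := hL.mono (by omega)
  obtain ⟨i', ⟨e1, e2, e3⟩, e4⟩ := Int.exists_least_of_bdd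
    (P := fun i' => a ≤ i' ∧ r (i' - 1) - p ≤ b ∧ r (i' - 1) - p ≤ Γ.g t i')
    ⟨a, fun _ h => h.1⟩ ⟨i, h3, by omega, by omega⟩
  refine hband i' (r (i' - 1) - p) e1 e2 ⟨?_, e3⟩ le_rfl (by omega)
  by_cases hia : i' = a
  · rw [hia]
    omega
  · by_contra hc
    have e5 : r (i' - 1 - 1) ≤ r (i' - 1) := hL.mono (by omega)
    have := e4 (i' - 1) ⟨by omega, by omega, by omega⟩
    omega

/-- The level curve moved down by the period is covered by exposed runs of unconnected layers. -/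
theorem Level.support (hL : Γ.Level K (Γ.y t0) p r) (ht0 : Γ.lay t0 ∈ K) (h0 : NA [])
    (hC : ∀ t a b, Γ.lay t ∉ K → Γ.Pt t a b → NA (seg (Γ.y t) a b))
    (hno : ¬ Γ.HasMove K NA) (i : ℤ) :
    ∃ b, (∃ t a, Γ.lay t ∈ K ∧ Γ.Exp (Γ.y t0) t a b ∧ a ≤ i) ∧ r i - p ≤ b := by
  have hi : r (i - 1) ≤ r i := hL.mono (by omega)
  have hp := hL.p_pos
  have hi' : r i ≤ r (i - 1) + p := by
    rw [← hL.r_per]
    exact hL.mono (by omega)
  have hhigh := hL.high h0 hno i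
  obtain ⟨t1, -, e2, e3⟩ := hL.on i
  obtain ⟨t, k1, k2, k3, k4⟩ := Γ.key (Γ.y t0) p hp hL.x_per i (r i) (by omega) ⟨t1, e2, e3.ge⟩
  have hnc := hL.not_cov ht0 h0 hC hno i
  by_cases hal : ∀ n, Γ.y t n = Γ.y t0 n
  · exfalso
    have k5 : Γ.g t i < r i := by
      by_contra hc
      exact k3 ⟨fun n _ _ => hal n, by omega⟩
    by_cases hK : Γ.lay t ∈ K
    · exact hnc ((hL.below t i hK hal k5).mono Γ k2)
    · refine hL.band ht0 h0 hno (i := i) (j := Γ.g t i) (by omega) (by omega) ?_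
      rw [← seg_congr (x := Γ.y t) fun n _ _ => hal n]
      exact hC t i _ hK ⟨Γ.g_mono t (by omega), le_rfl⟩
  · push Not at hal
    obtain ⟨n0, hn0⟩ := hal
    have hq : (0 : ℤ) < Γ.q (Γ.lay t) := by exact_mod_cast Γ.q_pos t
    have hp' : (0 : ℤ) < p := by exact_mod_cast hp
    have hdev : ∀ m : ℤ, Γ.y t (n0 + p * Γ.q (Γ.lay t) * m) ≠
        Γ.y t0 (n0 + p * Γ.q (Γ.lay t) * m) := by
      intro m
      have a1 := per_mul (Γ.y_q t) (p * m) n0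
      have a2 := per_mul hL.x_per (Γ.q (Γ.lay t) * m) n0
      rw [show n0 + p * Γ.q (Γ.lay t) * m = n0 + Γ.q (Γ.lay t) * (p * m) by ring, a1,
        show n0 + Γ.q (Γ.lay t) * (p * m) = n0 + p * (Γ.q (Γ.lay t) * m) by ring, a2]
      exact hn0
    have hpq : (1 : ℤ) ≤ p * Γ.q (Γ.lay t) := mul_pos hp' hq
    obtain ⟨b, ⟨b1, b2⟩, b3⟩ := Int.exists_least_of_bdd
      (P := fun n => i ≤ n ∧ Γ.y t n ≠ Γ.y t0 n) ⟨i, fun _ h => h.1⟩
      ⟨_, by nlinarith [le_abs_self (i - n0), abs_nonneg (i - n0)], hdev |i - n0|⟩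
    obtain ⟨a, ⟨a1, a2⟩, a3⟩ := Int.exists_greatest_of_bdd
      (P := fun n => n < i ∧ Γ.y t n ≠ Γ.y t0 n) ⟨i, fun _ h => h.1.le⟩
      ⟨_, by nlinarith [neg_abs_le (i - n0), abs_nonneg (i - n0)], hdev (-(|i - n0| + 1))⟩
    have hb : r i - p ≤ b := by
      by_contra hc
      exact b2 (k1 b b1 (by omega))
    have hag : ∀ n, a + 1 ≤ n → n < b → Γ.y t n = Γ.y t0 n := by
      intro n n1 n2
      by_contra hc
      by_cases hn : n < i
      · have := a3 n ⟨hn, hc⟩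
        omega
      · have := b3 n ⟨by omega, hc⟩
        omega
    have ha : Γ.y t (a + 1 - 1) ≠ Γ.y t0 (a + 1 - 1) := by rwa [add_sub_cancel_right]
    have hexp : Γ.Exp (Γ.y t0) t (a + 1) b :=
      ⟨hag, ha, b2, k4 (a + 1) b (by omega) hb hag ha b2⟩
    by_cases hK : Γ.lay t ∈ K
    · exact ⟨b, ⟨t, a + 1, hK, hexp, by omega⟩, hb⟩
    · exact absurd ⟨t, a + 1, b, hK, hexp, by omega, hb, k2⟩ hnc

theorem Exp.long (h0 : NA []) (hno : ¬ Γ.HasMove K NA) {x : ℤ → ℕ} {t : ι} (ht : Γ.lay t ∈ K)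
    {a b : ℤ} (h : Γ.Exp x t a b) : (Γ.q (Γ.lay t) : ℤ) < b - a := by
  have h1 := long_of_not h0 hno ht (a := a) (b := Γ.g t (a - 1)) ⟨le_rfl, Γ.g_mono t (by omega)⟩
  have := h.low
  omega

theorem Exp.lay_ne (h0 : NA []) (hno : ¬ Γ.HasMove K NA) {x : ℤ → ℕ} {t t' : ι}
    (ht : Γ.lay t ∈ K) {a b : ℤ} (h : Γ.Exp x t a b) (ht' : ∀ n, Γ.y t' n = x n) :
    Γ.lay t ≠ Γ.lay t' := by
  intro e
  have hq : (0 : ℤ) < Γ.q (Γ.lay t) := by exact_mod_cast Γ.q_pos t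
  refine h.right (fw_one hq (Γ.y_q t) (fun n => ?_) h.agree (h.long h0 hno ht).le)
  rw [← ht', ← ht', e]
  exact Γ.y_q t' n

/-- Exposed runs of unconnected layers lie strictly below the level curve. -/
theorem Level.exp_lt (hL : Γ.Level K (Γ.y t0) p r) (ht0 : Γ.lay t0 ∈ K) (h0 : NA [])
    (hno : ¬ Γ.HasMove K NA) {t : ι} (ht : Γ.lay t ∈ K) {a b : ℤ}
    (h : Γ.Exp (Γ.y t0) t a b) : b < r (a - 1) := by
  by_contra hc
  obtain ⟨t', h1, h2, h3⟩ := hL.pt a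
  have hq : (0 : ℤ) < Γ.q (Γ.lay t) := by exact_mod_cast Γ.q_pos t
  have hp : (0 : ℤ) < p := by exact_mod_cast hL.p_pos
  have h4 := h.long h0 hno ht
  have h5 := h.lay_ne h0 hno ht h2
  have h6 := hL.p_le t' h1 h2
  have h7 : b - a < Γ.q (Γ.lay t) + p := by
    by_contra hc'
    exact h.right (fw_two hq hp (Γ.y_q t) hL.x_per h.agree (by omega))
  have h8 := hL.high h0 hno a
  have h9 := Γ.g_gt t (a - 1)
  have h10 := h.low
  refine hno (hasMove_eps h0 ht0 (i := a) (j := b) (by omega) (D := {Γ.lay t, Γ.lay t'}) ?_ ?_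
    fun γ hγ => ?_)
  · exact Finset.insert_subset ht (Finset.singleton_subset_iff.2 h1)
  · rw [Finset.sum_pair h5]
    omega
  · rw [Finset.mem_insert, Finset.mem_singleton] at hγ
    rcases hγ with rfl | rfl
    · exact ⟨t, a, Γ.g t (a - 1), rfl, ⟨le_rfl, Γ.g_mono t (by omega)⟩,
        fun n n1 n2 => h.agree n n1 (by omega), by omega⟩
    · exact ⟨t', a, r (a - 1), rfl, h3, fun n _ _ => h2 n, by omega⟩

theorem Level.hasMove (hL : Γ.Level K (Γ.y t0) p r) (ht0 : Γ.lay t0 ∈ K) (h0 : NA [])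
    (hC : ∀ t a b, Γ.lay t ∉ K → Γ.Pt t a b → NA (seg (Γ.y t) a b)) : Γ.HasMove K NA := by
  by_contra hno
  have hp : (0 : ℤ) < p := by exact_mod_cast hL.p_pos
  have hF : ∀ i, ∃ b, (∃ t a, Γ.lay t ∈ K ∧ Γ.Exp (Γ.y t0) t a b ∧ a ≤ i) ∧
      ∀ b', (∃ t a, Γ.lay t ∈ K ∧ Γ.Exp (Γ.y t0) t a b' ∧ a ≤ i) → b' ≤ b := by
    intro i
    obtain ⟨b, hb, -⟩ := hL.support ht0 h0 hC hno i
    refine Int.exists_greatest_of_bdd ⟨r i, ?_⟩ ⟨b, hb⟩
    rintro b' ⟨t, a, h1, h2, h3⟩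
    have h4 := hL.exp_lt ht0 h0 hno h1 h2
    have h5 : r (a - 1) ≤ r i := hL.mono (by omega)
    omega
  choose F hF1 hF2 using hF
  have hFp : ∀ i, F i + p ≤ F (i + p) := by
    intro i
    obtain ⟨t, a, h1, h2, h3⟩ := hF1 i
    exact hF2 _ _ ⟨Γ.sh (-p) t, a + p, by rwa [Γ.lay_sh], h2.shift Γ hL.x_per, by omega⟩
  obtain ⟨i, hi⟩ : ∃ i, F (i - 1) < F i := by
    by_contra hc
    push Not at hc
    have hanti : Antitone F := antitone_int_of_succ_le fun n => by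
      have := hc (n + 1)
      rwa [add_sub_cancel_right] at this
    have h1 := hanti (show (0 : ℤ) ≤ 0 + p by omega)
    have h2 := hFp 0
    omega
  obtain ⟨t1, a1, k1, e1, l1⟩ := hF1 (i - 1)
  obtain ⟨t2, a2, k2, e2, l2⟩ := hF1 i
  have ha2 : a2 = i := by
    by_contra hc
    have := hF2 (i - 1) _ ⟨t2, a2, k2, e2, by omega⟩
    omega
  subst ha2
  have ha1 : a2 - p ≤ a1 := by
    by_contra hc
    have := hF2 (a2 - 1) _
      ⟨Γ.sh (-p) t1, a1 + p, by rwa [Γ.lay_sh], e1.shift Γ hL.x_per, by omega⟩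
    omega
  set b1 := F (a2 - 1) with hb1
  set b2 := F a2 with hb2
  have hr1 : r (a2 - 1) - p ≤ b1 := by
    obtain ⟨b, hb, hb'⟩ := hL.support ht0 h0 hC hno (a2 - 1)
    exact hb'.trans (hF2 _ _ hb)
  have hhigh := hL.high h0 hno a2
  have hlt2 := hL.exp_lt ht0 h0 hno k2 e2
  obtain ⟨t', k', al', pt'⟩ := hL.pt a2
  have hq' := hL.p_le t' k' al'
  have n1 := e1.lay_ne h0 hno k1 al'
  have n2 := e2.lay_ne h0 hno k2 al'
  have hq1 : (0 : ℤ) < Γ.q (Γ.lay t1) := by exact_mod_cast Γ.q_pos t1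
  have hq2 : (0 : ℤ) < Γ.q (Γ.lay t2) := by exact_mod_cast Γ.q_pos t2
  have hag : ∀ n, a2 ≤ n → n < b1 → Γ.y t1 n = Γ.y t2 n := fun n m1 m2 => by
    rw [e1.agree n (by omega) m2, e2.agree n m1 (by omega)]
  have hne : Γ.y t1 b1 ≠ Γ.y t2 b1 := by
    rw [e2.agree b1 (by omega) hi]
    exact e1.right
  have hlong1 := e1.long h0 hno k1
  obtain ⟨i1, ⟨m1, m2⟩, m3⟩ := Int.exists_least_of_bdd
    (P := fun n => a1 ≤ n ∧ b1 ≤ Γ.g t1 n) ⟨a1, fun _ h => h.1⟩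
    ⟨b1 - 1, by omega, by have := Γ.g_gt t1 (b1 - 1); omega⟩
  have m4 : i1 ≤ b1 - 1 := m3 _ ⟨by omega, by have := Γ.g_gt t1 (b1 - 1); omega⟩
  have m5 : Γ.g t1 (i1 - 1) ≤ b1 := by
    by_cases hia : i1 = a1
    · rw [hia]
      exact e1.low
    · by_contra hc
      have := m3 (i1 - 1) ⟨by omega, by omega⟩
      omega
  have hg2 := Γ.g_gt t2 (a2 - 1)
  have hl2 := e2.low
  refine hno (hasMove_eps h0 ht0 (i := a2) (j := b1 + p) (by omega)
    (D := {Γ.lay t', Γ.lay t1, Γ.lay t2}) ?_ ?_ fun γ hγ => ?_)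
  · exact Finset.insert_subset k' (Finset.insert_subset k1 (Finset.singleton_subset_iff.2 k2))
  · rw [Finset.sum_insert (by
      rw [Finset.mem_insert, Finset.mem_singleton]
      rintro (h | h)
      · exact n1 h.symm
      · exact n2 h.symm)]
    by_cases h12 : Γ.lay t1 = Γ.lay t2
    · have : b1 - a2 < Γ.q (Γ.lay t1) := by
        by_contra hc
        refine hne (fw_one hq1 (Γ.y_q t1) (fun n => ?_) hag (by omega))
        rw [h12]
        exact Γ.y_q t2 n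
      rw [← h12, Finset.pair_eq_singleton, Finset.sum_singleton]
      omega
    · have : b1 - a2 < Γ.q (Γ.lay t1) + Γ.q (Γ.lay t2) := by
        by_contra hc
        exact hne (fw_two hq1 hq2 (Γ.y_q t1) (Γ.y_q t2) hag (by omega))
      rw [Finset.sum_pair h12]
      omega
  · rw [Finset.mem_insert, Finset.mem_insert, Finset.mem_singleton] at hγ
    rcases hγ with rfl | rfl | rfl
    · exact ⟨t', a2, r (a2 - 1), rfl, pt', fun n _ _ => al' n, by omega⟩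
    · refine ⟨Γ.sh (-p) t1, i1 + p, b1 + p, Γ.lay_sh _ _, ⟨?_, ?_⟩, fun n o1 o2 => ?_, by omega⟩
      · rw [Γ.g_sh, show i1 + p - 1 + -(p : ℤ) = i1 - 1 by ring]
        omega
      · rw [Γ.g_sh, show i1 + p + -(p : ℤ) = i1 by ring]
        omega
      · exact (e1.shift Γ hL.x_per).agree n (by omega) o2
    · exact ⟨t2, a2, Γ.g t2 (a2 - 1), rfl, ⟨le_rfl, Γ.g_mono t2 (by omega)⟩,
        fun n o1 o2 => e2.agree n o1 (by omega), by omega⟩

end Level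

/-- The main lemma. -/
theorem core [Fintype ι] (h0 : NA [])
    (hC : ∀ t a b, Γ.lay t ∉ K → Γ.Pt t a b → NA (seg (Γ.y t) a b))
    {t0 : ι} (ht0 : Γ.lay t0 ∈ K)
    (hfree : ∀ t, Γ.lay t ∉ K → (∀ n, 0 ≤ n → n < Γ.g t0 0 → Γ.y t n = Γ.y t0 n) →
      Γ.g t 0 < Γ.g t0 0) : Γ.HasMove K NA := by
  obtain ⟨p, r, hL⟩ := Γ.exists_level K t0 ht0 (by
    rintro ⟨t, a, b, h1, h2, h3, h4, h5⟩
    have := hfree t h1 fun n n1 n2 => h2.agree n (by omega) (by omega)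
    omega)
  exact hL.hasMove ht0 h0 hC

end Geo

end Vale.Agent.P333
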