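import Mathlib.Algebra.BigOperators.Group.Finset.Basic
import Mathlib.Algebra.Order.BigOperators.Group.Finset
import Mathlib.Data.Fintype.Card
import Mathlib.Data.Int.LeastGreatest
import Mathlib.Order.Lattice.Nat
import Mathlib.Order.Monotone.Basic
import Mathlib.Tactic.Linarith
import Mathlib.Tactic.Ring
import Mathlib.Tactic.Push

/-!
The geometric setting of the main lemma: a finite family of placements of periodic staircase
curves, and the level curve used in the proof.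
-/

namespace Vale.Agent.P333

/-- The factor `x[i, j)`. -/
def seg (x : ℤ → ℕ) (i j : ℤ) : List ℕ := (List.range (j - i).toNat).map fun l : ℕ => x (i + l)

theorem seg_congr {x x' : ℤ → ℕ} {i j : ℤ} (h : ∀ n, i ≤ n → n < j → x n = x' n) :
    seg x i j = seg x' i j := by
  unfold seg
  refine List.map_congr_left fun l hl => h _ (by omega) ?_
  have := List.mem_range.1 hl
  omega

theorem seg_self (x : ℤ → ℕ) (i : ℤ) : seg x i i = [] := by simp [seg]

/-- Two periodic words that agree on a long interval agree at its end. -/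
theorem fw_two {u v : ℤ → ℕ} {p q a b : ℤ} (hp : 0 < p) (hq : 0 < q)
    (hu : ∀ n, u (n + p) = u n) (hv : ∀ n, v (n + q) = v n)
    (h : ∀ n, a ≤ n → n < b → u n = v n) (hab : p + q ≤ b - a) : u b = v b := by
  have e1 : u b = u (b - p) := by rw [← hu (b - p)]; congr 1; ring
  have e2 : v (b - p) = v (b - p - q) := by rw [← hv (b - p - q)]; congr 1; ring
  have e3 : u (b - q) = u (b - p - q) := by rw [← hu (b - p - q)]; congr 1; ring
  have e4 : v b = v (b - q) := by rw [← hv (b - q)]; congr 1; ring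
  rw [e1, h (b - p) (by omega) (by omega), e2, ← h (b - p - q) (by omega) (by omega), ← e3,
    h (b - q) (by omega) (by omega), e4]

theorem fw_one {u v : ℤ → ℕ} {p a b : ℤ} (hp : 0 < p)
    (hu : ∀ n, u (n + p) = u n) (hv : ∀ n, v (n + p) = v n)
    (h : ∀ n, a ≤ n → n < b → u n = v n) (hab : p ≤ b - a) : u b = v b := by
  have e1 : u b = u (b - p) := by rw [← hu (b - p)]; congr 1; ring
  have e4 : v b = v (b - p) := by rw [← hv (b - p)]; congr 1; ring
  rw [e1, h (b - p) (by omega) (by omega), e4]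

theorem per_mul {β : Type} {u : ℤ → β} {p : ℤ} (hu : ∀ n, u (n + p) = u n) (m n : ℤ) :
    u (n + p * m) = u n := by
  induction m using Int.induction_on with
  | zero => simp
  | succ k ih => rw [← ih, ← hu (n + p * k)]; congr 1; ring
  | pred k ih => rw [← ih, ← hu (n + p * (-(k : ℤ) - 1))]; congr 1; ring

/-- A finite family of placements `t`: `y t` is the word, `g t` the staircase curve, `lay t` the
layer, `q` the size of a layer, `sh k t` the placement moved `k` positions to the left. -/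
structure Geo (ι G : Type) where
  /-- word -/
  y : ι → ℤ → ℕ
  /-- curve -/
  g : ι → ℤ → ℤ
  /-- layer -/
  lay : ι → G
  /-- size of a layer -/
  q : G → ℕ
  /-- shift -/
  sh : ℤ → ι → ι
  sh_inj : ∀ k, Function.Injective (sh k)
  y_sh : ∀ k t n, y (sh k t) n = y t (n + k)
  g_sh : ∀ k t n, g (sh k t) n = g t (n + k) - k
  lay_sh : ∀ k t, lay (sh k t) = lay t
  q_pos : ∀ t, 0 < q (lay t)
  y_q : ∀ t n, y t (n + q (lay t)) = y t n
  g_succ : ∀ t n, g t n ≤ g t (n + 1)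
  g_gt : ∀ t n, n < g t n
  key : ∀ (x : ℤ → ℕ) (p : ℕ), 0 < p → (∀ n, x (n + p) = x n) → ∀ i j : ℤ, i + p < j →
    (∃ t, (∀ n, y t n = x n) ∧ j ≤ g t i) →
    ∃ t, (∀ n, i ≤ n → n < j - p → y t n = x n) ∧ j - p ≤ g t i ∧
      ¬ ((∀ n, i ≤ n → n < j → y t n = x n) ∧ j ≤ g t i) ∧
      ∀ a b, a ≤ i → j - p ≤ b → (∀ n, a ≤ n → n < b → y t n = x n) →
        y t (a - 1) ≠ x (a - 1) → y t b ≠ x b → g t (a - 1) ≤ b

namespace Geo

variable {ι G : Type} (Γ : Geo ι G)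

theorem g_mono (t : ι) : Monotone (Γ.g t) := monotone_int_of_le_succ (Γ.g_succ t)

/-- `(a, b)` is a point of the curve of `t`. -/
def Pt (t : ι) (a b : ℤ) : Prop := Γ.g t (a - 1) ≤ b ∧ b ≤ Γ.g t a

/-- `[a, b)` is a maximal interval on which `t` agrees with `x`, and the curve of `t` enters the
triangle below it. -/
structure Exp (x : ℤ → ℕ) (t : ι) (a b : ℤ) : Prop where
  agree : ∀ n, a ≤ n → n < b → Γ.y t n = x n
  left : Γ.y t (a - 1) ≠ x (a - 1)
  right : Γ.y t b ≠ x b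
  low : Γ.g t (a - 1) ≤ b

theorem Exp.shift {x : ℤ → ℕ} {p : ℤ} (hx : ∀ n, x (n + p) = x n) {t : ι} {a b : ℤ}
    (h : Γ.Exp x t a b) : Γ.Exp x (Γ.sh (-p) t) (a + p) (b + p) where
  agree n h1 h2 := by
    rw [Γ.y_sh, h.agree _ (by omega) (by omega), ← hx (n + -p)]; congr 1; ring
  left := by
    rw [Γ.y_sh, show a + p - 1 + -p = a - 1 by ring, show a + p - 1 = a - 1 + p by ring, hx]
    exact h.left
  right := by
    rw [Γ.y_sh, show b + p + -p = b by ring, hx]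
    exact h.right
  low := by
    rw [Γ.g_sh, show a + p - 1 + -p = a - 1 by ring]
    have := h.low
    omega

variable [DecidableEq G]

/-- A valid move: the loop that deletes the first `c` letters of the factor `[i, j)` of the word
of `t0` meets the set `NA` and the layers `D`, of total size at least `c`. -/
structure Move (K : Finset G) (NA : List ℕ → Prop) (t0 : ι) (i j : ℤ) (c : ℕ) (D : Finset G) :
    Prop where
  mem : Γ.lay t0 ∈ K
  pos : 1 ≤ c
  le : i + c ≤ j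
  per : ∀ n, i ≤ n → n + c < j → Γ.y t0 (n + c) = Γ.y t0 n
  short : ∃ t, Γ.lay t ∈ K ∧ j - i ≤ c + Γ.g t 0
  att : ∃ e, j - c ≤ e ∧ e ≤ j ∧ NA (seg (Γ.y t0) i e)
  sub : D ⊆ K
  cost : c ≤ ∑ γ ∈ D, Γ.q γ
  touch : ∀ γ ∈ D, ∃ t a b, Γ.lay t = γ ∧ Γ.Pt t a b ∧
    (∀ n, a ≤ n → n < b → Γ.y t n = Γ.y t0 n) ∧
    ((a = i ∧ j - c ≤ b ∧ b ≤ j) ∨ (b = j ∧ i ≤ a ∧ a ≤ i + c))

/-- `[i, j)` is covered by an exposed run of a layer outside `K`. -/
def Cov (K : Finset G) (x : ℤ → ℕ) (i j : ℤ) : Prop :=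
  ∃ t a b, Γ.lay t ∉ K ∧ Γ.Exp x t a b ∧ a ≤ i ∧ j ≤ b ∧ j ≤ Γ.g t i

omit [DecidableEq G] in
theorem Cov.mono {K : Finset G} {x : ℤ → ℕ} {i j j' : ℤ} (h : Γ.Cov K x i j) (hj : j' ≤ j) :
    Γ.Cov K x i j' := by
  obtain ⟨t, a, b, h1, h2, h3, h4, h5⟩ := h
  exact ⟨t, a, b, h1, h2, h3, by omega, by omega⟩

omit [DecidableEq G] in
theorem Cov.shift {K : Finset G} {x : ℤ → ℕ} {p : ℤ} (hx : ∀ n, x (n + p) = x n) {i j : ℤ}
    (h : Γ.Cov K x i j) : Γ.Cov K x (i + p) (j + p) := by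
  obtain ⟨t, a, b, h1, h2, h3, h4, h5⟩ := h
  refine ⟨Γ.sh (-p) t, a + p, b + p, by rwa [Γ.lay_sh], h2.shift Γ hx, by omega, by omega, ?_⟩
  rw [Γ.g_sh, show i + p + -p = i by ring]
  omega

/-- The properties of the level curve `r`. -/
structure Level (K : Finset G) (x : ℤ → ℕ) (p : ℕ) (r : ℤ → ℤ) : Prop where
  p_pos : 0 < p
  x_per : ∀ n, x (n + p) = x n
  p_le : ∀ t, Γ.lay t ∈ K → (∀ n, Γ.y t n = x n) → p ≤ Γ.q (Γ.lay t)
  mono : Monotone r
  r_per : ∀ i, r (i + p) = r i + p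
  on : ∀ i, ∃ t, Γ.lay t ∈ K ∧ (∀ n, Γ.y t n = x n) ∧ Γ.g t i = r i
  free : ∀ a : ℤ, ∃ i : ℤ, a ≤ i ∧ i < a + p ∧ ¬ Γ.Cov K x i (r i)
  below : ∀ t i, Γ.lay t ∈ K → (∀ n, Γ.y t n = x n) → Γ.g t i < r i → Γ.Cov K x i (Γ.g t i)

open Classical in
theorem exists_level [Fintype ι] (K : Finset G) (t0 : ι) (h0 : Γ.lay t0 ∈ K)
    (hfree : ¬ Γ.Cov K (Γ.y t0) 0 (Γ.g t0 0)) : ∃ p r, Γ.Level K (Γ.y t0) p r := by
  set x := Γ.y t0 with hx
  let P : Finset ι := Finset.univ.filter fun t => Γ.lay t ∈ K ∧ ∀ n, Γ.y t n = x n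
  have hP : ∀ t, t ∈ P ↔ Γ.lay t ∈ K ∧ ∀ n, Γ.y t n = x n := fun t => by simp [P]
  have ht0 : t0 ∈ P := (hP t0).2 ⟨h0, fun _ => rfl⟩
  obtain ⟨tp, htp, hmin⟩ := P.exists_min_image (fun t => Γ.q (Γ.lay t)) ⟨t0, ht0⟩
  set p := Γ.q (Γ.lay tp) with hp
  have hxp : ∀ n, x (n + p) = x n := fun n => by
    rw [← ((hP tp).1 htp).2, ← ((hP tp).1 htp).2]; exact Γ.y_q tp n
  have hxp' : ∀ n, x (n + -(p : ℤ)) = x n := fun n => by
    rw [← hxp (n + -(p : ℤ))]; congr 1; ring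
  let N : ℤ → ℤ → ℕ := fun i j => (P.filter fun t => j ≤ Γ.g t i).card
  let U : ℤ → Finset ι := fun i => P.filter fun t => ¬ Γ.Cov K x i (Γ.g t i)
  have hbdd : BddAbove (Set.range fun i => (U i).card) :=
    ⟨Fintype.card ι, by rintro _ ⟨i, rfl⟩; exact Finset.card_le_univ _⟩
  obtain ⟨i0, hi0⟩ := Nat.sSup_mem (Set.range_nonempty fun i => (U i).card) hbdd
  have hk : ∀ i, (U i).card ≤ (U i0).card := fun i => by
    have := le_csSup hbdd ⟨i, rfl⟩
    simp only at hi0 this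
    omega
  set k := (U i0).card with hkdef
  have hk1 : 1 ≤ k := by
    refine le_trans ?_ (hk 0)
    exact Finset.card_pos.2 ⟨t0, Finset.mem_filter.2 ⟨ht0, hfree⟩⟩
  have hr : ∀ i, ∃ r, k ≤ N i r ∧ ∀ j, k ≤ N i j → j ≤ r := by
    intro i
    obtain ⟨tm, -, htm⟩ := P.exists_max_image (fun t => Γ.g t i) ⟨t0, ht0⟩
    refine Int.exists_greatest_of_bdd ⟨Γ.g tm i, fun j hj => ?_⟩ ⟨i, ?_⟩
    · obtain ⟨t, ht⟩ := Finset.card_pos.1 (lt_of_lt_of_le hk1 hj)
      rw [Finset.mem_filter] at ht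
      exact ht.2.trans (htm t ht.1)
    · refine Finset.card_le_card fun t ht => ?_
      rw [Finset.mem_filter] at ht ⊢
      exact ⟨ht.1, (Γ.g_gt t i).le⟩
  choose r hr1 hr2 using hr
  have hNsh : ∀ d : ℤ, (∀ n, x (n + -d) = x n) → ∀ i j, N i j ≤ N (i + d) (j + d) := by
    intro d hd i j
    refine Finset.card_le_card_of_injOn (Γ.sh (-d)) (fun t ht => ?_) (Γ.sh_inj _).injOn
    simp only [Finset.coe_filter, Set.mem_ofPred_eq, hP] at ht ⊢
    refine ⟨⟨by rw [Γ.lay_sh]; exact ht.1.1, fun n => by rw [Γ.y_sh, ht.1.2, hd]⟩, ?_⟩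
    rw [Γ.g_sh, show i + d + -d = i by ring]
    have := ht.2
    omega
  have hrper : ∀ i, r (i + p) = r i + p := by
    intro i
    have h1 := hr2 (i + p) (r i + p) ((hr1 i).trans (hNsh p hxp' i (r i)))
    have h2 := hNsh (-p) (fun n => by rw [neg_neg]; exact hxp n) (i + p) (r (i + p))
    rw [show i + p + -(p : ℤ) = i by ring] at h2
    have h3 := hr2 i _ ((hr1 (i + p)).trans h2)
    omega
  have hfree0 : ¬ Γ.Cov K x i0 (r i0) := by
    obtain ⟨tm, htm, hm⟩ := (U i0).exists_min_image (fun t => Γ.g t i0) (Finset.card_pos.1 hk1)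
    have h1 : Γ.g tm i0 ≤ r i0 := by
      refine hr2 i0 _ (Finset.card_le_card fun t ht => ?_)
      exact Finset.mem_filter.2 ⟨(Finset.mem_filter.1 ht).1, hm t ht⟩
    exact fun h => (Finset.mem_filter.1 htm).2 (h.mono Γ h1)
  refine ⟨p, r, Γ.q_pos tp, hxp, fun t h1 h2 => hmin t ((hP t).2 ⟨h1, h2⟩), ?_, hrper, ?_, ?_, ?_⟩
  · refine monotone_int_of_le_succ fun i => hr2 _ _ ((hr1 i).trans ?_)
    refine Finset.card_le_card fun t ht => ?_
    rw [Finset.mem_filter] at ht ⊢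
    exact ⟨ht.1, ht.2.trans (Γ.g_succ t i)⟩
  · intro i
    have h1 : N i (r i + 1) < N i (r i) := by
      by_contra h
      have := hr2 i (r i + 1) ((hr1 i).trans (not_lt.1 h))
      omega
    obtain ⟨t, ht, ht'⟩ := Finset.exists_mem_notMem_of_card_lt_card h1
    rw [Finset.mem_filter] at ht ht'
    refine ⟨t, ((hP t).1 ht.1).1, ((hP t).1 ht.1).2, ?_⟩
    have h2 : ¬ r i + 1 ≤ Γ.g t i := fun h => ht' ⟨ht.1, h⟩
    have := ht.2
    omega
  · intro a
    have hper : ∀ i, Γ.Cov K x (i + p) (r (i + p)) = Γ.Cov K x i (r i) := by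
      intro i
      rw [hrper]
      refine propext ⟨fun h => ?_, fun h => h.shift Γ hxp⟩
      have := h.shift Γ hxp'
      rwa [show i + p + -(p : ℤ) = i by ring, show r i + p + -(p : ℤ) = r i by ring] at this
    have hp0 : (0 : ℤ) < p := by exact_mod_cast Γ.q_pos tp
    refine ⟨a + (i0 - a) % p, ?_, ?_, ?_⟩
    · have := Int.emod_nonneg (i0 - a) hp0.ne'
      omega
    · have := Int.emod_lt_of_pos (i0 - a) hp0
      omega
    · have h1 := per_mul (u := fun i => Γ.Cov K x i (r i)) hper ((i0 - a) / p)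
        (a + (i0 - a) % p)
      have h2 := Int.emod_add_mul_ediv (i0 - a) p
      rw [show a + (i0 - a) % p + p * ((i0 - a) / p) = i0 by omega] at h1
      rw [← h1]
      exact hfree0
  · intro t i h1 h2 h3
    by_contra h4
    have h5 : insert t (P.filter fun t' => r i ≤ Γ.g t' i) ⊆ U i := by
      intro t' ht'
      rw [Finset.mem_insert] at ht'
      rcases ht' with rfl | ht'
      · exact Finset.mem_filter.2 ⟨(hP _).2 ⟨h1, h2⟩, h4⟩
      · rw [Finset.mem_filter] at ht'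
        exact Finset.mem_filter.2 ⟨ht'.1, fun h => h4 (h.mono Γ (by omega))⟩
    have h6 := Finset.card_le_card h5
    rw [Finset.card_insert_of_notMem (by rw [Finset.mem_filter]; omega)] at h6
    have h7 := hr1 i
    have h8 := hk i
    simp only [N] at h7
    omega

end Geo

end Vale.Agent.P333
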