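import Vale.Agent.P333.Spec
import Vale.Agent.P333.Geo
import Mathlib.Data.List.Rotate

/-!
Closed walks seen as periodic sequences of tokens.
-/

namespace Vale.Agent.P333

/-- The token number `n` of the periodic sequence defined by `L`. -/
def tok (L : List Str) (n : ℤ) : Str := L.getD (n % L.length).toNat []

theorem toNat_emod_lt {m : ℕ} (hm : 0 < m) (n : ℤ) : (n % m).toNat < m := by
  have h1 := Int.emod_nonneg n (b := m) (by omega)
  have h2 := Int.emod_lt_of_pos n (b := m) (by omega)
  omega

theorem tok_eq {L : List Str} (hL : L ≠ []) (n : ℤ) :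
    tok L n = L[(n % L.length).toNat]'(toNat_emod_lt (List.length_pos_iff.2 hL) n) := by
  unfold tok
  rw [List.getD_eq_getElem]

theorem tok_mem {L : List Str} (hL : L ≠ []) (n : ℤ) : tok L n ∈ L := by
  rw [tok_eq hL]
  exact List.getElem_mem _

theorem tok_nat {L : List Str} {k : ℕ} (hk : k < L.length) : tok L k = L[k] := by
  unfold tok
  rw [Int.emod_eq_of_lt (by omega) (by omega), Int.toNat_natCast, List.getD_eq_getElem]

theorem tok_congr {L : List Str} {m n : ℤ} (h : m % L.length = n % L.length) :
    tok L m = tok L n := by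
  unfold tok
  rw [h]

theorem tok_add_length (L : List Str) (n : ℤ) : tok L (n + L.length) = tok L n :=
  tok_congr (by simp)

theorem Walk.local : ∀ {L : List Str} {a b : Str}, Walk a L b →
    (∀ h : 0 < L.length, a <+: L[0]) ∧
      (∀ i, ∀ h : i + 1 < L.length, L[i].tail <+: L[i + 1]) ∧
      ∀ i, ∀ h : i + 1 = L.length, L[i].tail <+: b
  | [], _, _, _ => ⟨fun h => absurd h (by simp), fun _ h => absurd h (by simp),
      fun _ h => absurd h (by simp)⟩
  | z :: L, a, b, h => by
    obtain ⟨h1, h2, h3⟩ := Walk.local h.2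
    refine ⟨fun _ => h.1, fun i hi => ?_, fun i hi => ?_⟩
    · cases i with
      | zero => exact h1 (by simpa using hi)
      | succ i => exact h2 i (by simpa using hi)
    · cases i with
      | zero =>
        have hL : L = [] := List.eq_nil_of_length_eq_zero (by simpa using hi.symm)
        subst hL
        exact h.2
      | succ i => exact h3 i (by simpa using hi)

theorem Closed.tok_succ {L : List Str} (h : Closed L) (n : ℤ) :
    (tok L n).tail <+: tok L (n + 1) := by
  obtain ⟨hL, w, hw⟩ := h
  obtain ⟨h1, h2, h3⟩ := hw.local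
  have hpos := List.length_pos_iff.2 hL
  have hk := toNat_emod_lt hpos n
  have hn := Int.emod_nonneg n (b := L.length) (by omega)
  rw [tok_eq hL n]
  set k := (n % L.length).toNat with hkdef
  have e : tok L (n + 1) = tok L ((k + 1 : ℕ) : ℤ) := by
    refine tok_congr ?_
    rw [Nat.cast_add, hkdef, Int.toNat_of_nonneg hn, Nat.cast_one, Int.emod_add_emod]
  rw [e]
  by_cases hk1 : k + 1 < L.length
  · rw [tok_nat hk1]
    exact h2 k hk1
  · have e1 : k + 1 = L.length := by omega
    have e2 : tok L ((k + 1 : ℕ) : ℤ) = tok L ((0 : ℕ) : ℤ) := tok_congr (by rw [e1]; simp)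
    rw [e2, tok_nat hpos]
    exact (h3 k e1).trans (h1 hpos)

theorem walk_range : ∀ (m : ℕ) (f : ℕ → Str) (a b : Str), a <+: f 0 →
    (∀ i, i < m → (f i).tail <+: f (i + 1)) → (f m).tail <+: b →
    Walk a ((List.range (m + 1)).map f) b
  | 0, _, _, _, h0, _, hb => ⟨h0, hb⟩
  | m + 1, f, a, b, h0, hs, hb => by
    rw [List.range_succ_eq_map, List.map_cons, List.map_map]
    exact ⟨h0, walk_range m (f ∘ Nat.succ) _ b (hs 0 (by omega))
      (fun i hi => hs (i + 1) (by omega)) hb⟩

theorem lnode_of_tok {L : List Str} (hL : L ≠ [])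
    (hs : ∀ n : ℤ, (tok L n).tail <+: tok L (n + 1)) {n : ℤ} {w : Str}
    (h1 : (tok L (n - 1)).tail <+: w) (h2 : w <+: tok L n) : LNode L w := by
  have hpos := List.length_pos_iff.2 hL
  have hk := toNat_emod_lt hpos n
  have hn := Int.emod_nonneg n (b := L.length) (by omega)
  set k := (n % L.length).toNat with hkdef
  refine ⟨L.take k, L.drop k, (List.take_append_drop k L).symm, ?_, ?_⟩
  · intro h
    rw [List.drop_eq_nil_iff] at h
    omega
  · have e : L.drop k ++ L.take k =
        (List.range (L.length - 1 + 1)).map fun i : ℕ => tok L (n + i) := by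
      rw [← List.rotate_eq_drop_append_take hk.le]
      refine List.ext_getElem (by simp; omega) fun i i1 i2 => ?_
      rw [List.getElem_rotate, List.getElem_map, List.getElem_range,
        ← tok_nat (Nat.mod_lt _ hpos)]
      refine tok_congr ?_
      rw [Int.natCast_mod, Int.emod_emod_of_dvd _ dvd_rfl, Nat.cast_add, hkdef,
        Int.toNat_of_nonneg hn, Int.add_emod_emod, add_comm]
    rw [e]
    refine walk_range _ _ _ _ (by simpa using h2) (fun i _ => ?_) ?_
    · rw [Nat.cast_add, Nat.cast_one, ← add_assoc]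
      exact hs _
    · have : tok L (n + ((L.length - 1 : ℕ) : ℤ)) = tok L (n - 1) := by
        rw [← tok_add_length L (n - 1)]
        congr 1
        omega
      rwa [this]

theorem getD_of_chain {f : ℤ → Str} (hs : ∀ n, (f n).tail <+: f (n + 1)) :
    ∀ (l : ℕ) (n : ℤ) (h : l < (f n).length), (f n)[l] = (f (n + l)).headD 0
  | 0, n, h => by
    rw [Nat.cast_zero, add_zero]
    generalize f n = w at h ⊢
    cases w with
    | nil => simp at h
    | cons c w => simp
  | l + 1, n, h => by
    have h1 : l < (f n).tail.length := by rw [List.length_tail]; omega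
    have h2 : l < (f (n + 1)).length := lt_of_lt_of_le h1 (hs n).length_le
    have h3 := getD_of_chain hs l (n + 1) h2
    rw [← List.getElem_tail h1, (hs n).getElem h1, h3]
    congr 2
    push_cast
    ring

theorem length_seg (x : ℤ → ℕ) (a b : ℤ) : (seg x a b).length = (b - a).toNat := by simp [seg]

theorem seg_prefix_of_chain {f : ℤ → Str} (hs : ∀ n, (f n).tail <+: f (n + 1)) {a b : ℤ}
    (h : b ≤ a + (f a).length) : seg (fun n => (f n).headD 0) a b <+: f a := by
  have e : seg (fun n => (f n).headD 0) a b = (f a).take (b - a).toNat := by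
    refine List.ext_getElem (by rw [length_seg, List.length_take]; omega) fun i i1 i2 => ?_
    rw [List.getElem_take, getD_of_chain hs]
    simp [seg]
  rw [e]
  exact List.take_prefix _ _

theorem seg_prefix (x : ℤ → ℕ) (a : ℤ) {b b' : ℤ} (h : b ≤ b') : seg x a b <+: seg x a b' := by
  have e : seg x a b = (seg x a b').take (b - a).toNat := by
    refine List.ext_getElem (by rw [List.length_take, length_seg, length_seg]; omega)
      fun i i1 i2 => ?_
    simp [seg]
  rw [e]
  exact List.take_prefix _ _

theorem seg_drop (x : ℤ → ℕ) (a b : ℤ) (l : ℕ) : (seg x a b).drop l = seg x (a + l) b := by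
  refine List.ext_getElem (by rw [List.length_drop, length_seg, length_seg]; omega)
    fun i i1 i2 => ?_
  simp [seg, add_assoc]

theorem seg_shift {x : ℤ → ℕ} {i j : ℤ} {c : ℕ}
    (h : ∀ n, i ≤ n → n + c < j → x (n + c) = x n) : seg x (i + c) j = seg x i (j - c) := by
  refine List.ext_getElem (by rw [length_seg, length_seg]; omega) fun l l1 l2 => ?_
  rw [length_seg] at l2
  simp only [seg, List.getElem_map, List.getElem_range]
  rw [← h (i + l) (by omega) (by omega)]
  congr 1
  ring

theorem len_loop (gc : Str × ℕ) : (loop gc).length = gc.2 := by simp [loop]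

theorem closed_loop {g : Str} {c : ℕ} (hc : 1 ≤ c) (h : g.drop c <+: g) : Closed (loop (g, c)) := by
  refine ⟨fun e => ?_, g, ?_⟩
  · have := len_loop (g, c)
    rw [e] at this
    simp at this
    omega
  · obtain ⟨m, rfl⟩ : ∃ m, c = m + 1 := ⟨c - 1, by omega⟩
    refine walk_range m _ _ _ (by simp) (fun i _ => ?_) ?_
    · rw [List.tail_drop]
    · rwa [List.tail_drop]

theorem tok_loop {g : Str} {c l : ℕ} (hl : l < c) : tok (loop (g, c)) l = g.drop l := by
  rw [tok_nat (by rw [len_loop]; exact hl)]
  simp [loop]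

theorem lnode_loop_prefix {g w : Str} {c : ℕ} (hc : 1 ≤ c) (h : g.drop c <+: g)
    (h1 : g.drop c <+: w) (h2 : w <+: g) : LNode (loop (g, c)) w := by
  have hcl := closed_loop hc h
  refine lnode_of_tok hcl.1 hcl.tok_succ (n := ((0 : ℕ) : ℤ)) ?_ (by rwa [tok_loop (by omega)])
  have : tok (loop (g, c)) (((0 : ℕ) : ℤ) - 1) = tok (loop (g, c)) ((c - 1 : ℕ) : ℤ) := by
    rw [← tok_add_length, len_loop]
    congr 1
    omega
  rw [this, tok_loop (by omega), List.tail_drop, show c - 1 + 1 = c by omega]
  exact h1

theorem lnode_loop_drop {g : Str} {c l : ℕ} (hc : 1 ≤ c) (h : g.drop c <+: g) (hl : l ≤ c) :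
    LNode (loop (g, c)) (g.drop l) := by
  have hcl := closed_loop hc h
  rcases Nat.eq_zero_or_pos l with rfl | hpos
  · exact lnode_loop_prefix hc h h (List.prefix_refl _)
  by_cases hlc : l = c
  · subst hlc
    exact lnode_loop_prefix hc h (List.prefix_refl _) h
  refine lnode_of_tok hcl.1 hcl.tok_succ (n := (l : ℤ)) ?_ (by rw [tok_loop (by omega)])
  rw [show (l : ℤ) - 1 = ((l - 1 : ℕ) : ℤ) by omega, tok_loop (by omega), List.tail_drop,
    show l - 1 + 1 = l by omega]

end Vale.Agent.P333
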