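import Mathlib.Computability.TuringMachine.Computable
import Mathlib.Order.Lattice.Nat
import Mathlib.Algebra.Order.Archimedean.Real.Basic

/-!
The shortest common superstring problem and its polynomial time approximation algorithms.
Letters are natural numbers (so the alphabet is arbitrary and part of the input), strings are
lists of letters, an instance is a list of strings.
-/

namespace Vale.Agent.P333

/-- `T` is a common superstring of `S`: every member of `S` is a contiguous substring of `T`. -/
def IsSuperstring (S : List (List ℕ)) (T : List ℕ) : Prop := ∀ s ∈ S, s <:+: T

/-- `OPT(S)`: the minimum length of a common superstring of `S`. -/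
noncomputable def opt (S : List (List ℕ)) : ℕ :=
  sInf {n | ∃ T, IsSuperstring S T ∧ T.length = n}

/-- Binary code of a list: every bit of the code of a member is preceded by `true`, and the code
of every member is followed by `false`. -/
def codeList {α : Type} (c : α → List Bool) (l : List α) : List Bool :=
  l.flatMap fun a => ((c a).flatMap fun b => [true, b]) ++ [false]

/-- Binary code of a string: the list of its letters, written in binary. -/
def codeString : List ℕ → List Bool := codeList Nat.bits

/-- Binary code of an instance: the list of the codes of its strings. -/
def codeInstance : List (List ℕ) → List Bool := codeList codeString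

/-- There is a `ρ`-approximation: a function computed by a deterministic Turing machine (with
finite alphabets) in time polynomial in the length of the input, whose value on every instance `S`
is a common superstring of `S` of length at most `ρ · OPT(S)`. -/
def HasApproximation (ρ : ℝ) : Prop :=
  ∃ f : List (List ℕ) → List ℕ,
    (∃ M : Turing.TM2ComputableInPolyTime codeInstance codeString f, ∀ k, Finite (M.tm.Γ k)) ∧
    ∀ S, IsSuperstring S (f S) ∧ ((f S).length : ℝ) ≤ ρ * opt S

/-- `ρ*`: the infimum of all `ρ ≥ 1` for which a `ρ`-approximation exists. -/
noncomputable def rhoStar : ℝ := sInf {ρ | 1 ≤ ρ ∧ HasApproximation ρ}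

end Vale.Agent.P333
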