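import Vale.Agent.P333.Tokens
import Vale.Agent.P333.Geo

/-!
The key lemma: the counting rule, read on the curves defined by a permutation of the tokens.
-/

namespace Vale.Agent.P333

open Finset

section

variable {ι : Type} (z : ι → Str) (σ : Equiv.Perm ι)

/-- The word of the placement `t`. -/
def yOf (t : ι) (n : ℤ) : ℕ := (z ((σ ^ n) t)).headD 0

/-- The curve of the placement `t`. -/
def gOf (t : ι) (n : ℤ) : ℤ := n + (z ((σ ^ n) t)).length

variable {z σ}

theorem drop_prefix_pow (hs : ∀ t, (z t).tail <+: z (σ t)) (s : ι) (l : ℕ) :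
    (z s).drop l <+: z ((σ ^ l) s) := by
  induction l with
  | zero => simp
  | succ l ih =>
    rw [pow_succ', Equiv.Perm.mul_apply, ← List.tail_drop]
    refine List.IsPrefix.trans ?_ (hs _)
    obtain ⟨w, hw⟩ := ih
    rw [← hw]
    rcases (z s).drop l with _ | ⟨c, r⟩
    · simp
    · simp

theorem getD_eq_yOf (hs : ∀ t, (z t).tail <+: z (σ t)) (t : ι) (n : ℤ) {l : ℕ}
    (hl : l < (z ((σ ^ n) t)).length) : (z ((σ ^ n) t)).getD l 0 = yOf z σ t (n + l) := by
  obtain ⟨w, hw⟩ := drop_prefix_pow hs ((σ ^ n) t) l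
  have e : (σ ^ l) ((σ ^ n) t) = (σ ^ (n + l)) t := by
    rw [add_comm, zpow_add, zpow_natCast, Equiv.Perm.mul_apply]
  unfold yOf
  rw [← e, ← hw, List.drop_eq_getElem_cons hl, List.getD_eq_getElem _ _ hl]
  rfl

theorem key_length_seg (x : ℤ → ℕ) (i j : ℤ) : (seg x i j).length = (j - i).toNat := by simp [seg]

theorem key_getD_seg (x : ℤ → ℕ) (i j : ℤ) {l : ℕ} (hl : l < (j - i).toNat) :
    (seg x i j).getD l 0 = x (i + l) := by
  rw [List.getD_eq_getElem _ _ (by rwa [key_length_seg])]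
  simp [seg]

theorem key_prefix_iff_getD {u w : Str} :
    u <+: w ↔ u.length ≤ w.length ∧ ∀ l < u.length, w.getD l 0 = u.getD l 0 := by
  constructor
  · rintro ⟨r, rfl⟩
    refine ⟨by simp, fun l hl => ?_⟩
    rw [List.getD_append _ _ _ _ hl]
  · rintro ⟨h1, h2⟩
    rw [List.prefix_iff_eq_take]
    refine List.ext_getElem (by simp [h1]) fun l hl hl' => ?_
    have := h2 l hl
    rw [List.getD_eq_getElem _ _ hl, List.getD_eq_getElem _ _ (by omega)] at this
    rw [List.getElem_take, this]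

/-- The placement `t` covers `x[i, j)`. -/
def KCov (z : ι → Str) (σ : Equiv.Perm ι) (x : ℤ → ℕ) (i j : ℤ) (t : ι) : Prop :=
  (∀ n, i ≤ n → n < j → yOf z σ t n = x n) ∧ j ≤ gOf z σ t i

/-- The placement `t` covers a closed run around `x[i, j)`. -/
def KHidden (z : ι → Str) (σ : Equiv.Perm ι) (x : ℤ → ℕ) (i j : ℤ) (t : ι) : Prop :=
  ∃ a b, a ≤ i ∧ j ≤ b ∧ (∀ n, a ≤ n → n < b → yOf z σ t n = x n) ∧
    yOf z σ t (a - 1) ≠ x (a - 1) ∧ yOf z σ t b ≠ x b ∧ b < gOf z σ t (a - 1)

theorem seg_prefix_iff (hs : ∀ t, (z t).tail <+: z (σ t)) (x : ℤ → ℕ) {i j : ℤ} (hij : i ≤ j)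
    (t : ι) : seg x i j <+: z ((σ ^ i) t) ↔ KCov z σ x i j t := by
  rw [key_prefix_iff_getD, key_length_seg]
  unfold KCov gOf
  constructor
  · rintro ⟨h1, h2⟩
    refine ⟨fun n hn hn' => ?_, by omega⟩
    have h3 := h2 (n - i).toNat (by omega)
    rw [getD_eq_yOf hs t i (by omega), key_getD_seg x i j (by omega)] at h3
    have e : i + ((n - i).toNat : ℤ) = n := by omega
    rwa [e] at h3
  · rintro ⟨h1, h2⟩
    refine ⟨by omega, fun l hl => ?_⟩
    rw [getD_eq_yOf hs t i (by omega), key_getD_seg x i j hl]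
    exact h1 _ (by omega) (by omega)

theorem gOf_mono (hs : ∀ t, (z t).tail <+: z (σ t)) (t : ι) : Monotone (gOf z σ t) := by
  refine monotone_int_of_le_succ fun n => ?_
  have h := (hs ((σ ^ n) t)).length_le
  have e : σ ((σ ^ n) t) = (σ ^ (n + 1)) t := by
    rw [add_comm, zpow_add, zpow_one, Equiv.Perm.mul_apply]
  rw [e, List.length_tail] at h
  unfold gOf
  omega

theorem KHidden.cov (hs : ∀ t, (z t).tail <+: z (σ t)) {x : ℤ → ℕ} {i j : ℤ} {t : ι}
    (h : KHidden z σ x i j t) : KCov z σ x i j t := by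
  obtain ⟨a, b, h1, h2, h3, -, -, h6⟩ := h
  refine ⟨fun n hn hn' => h3 n (by omega) (by omega), ?_⟩
  have := gOf_mono hs t (show a - 1 ≤ i by omega)
  omega

theorem ext_seg {x : ℤ → ℕ} {p : ℕ} (hp : 0 < p) (hx : ∀ n, x (n + p) = x n) {i j : ℤ}
    (hij : i + p ≤ j) (k l : ℕ) : ext (seg x i j) p k l = x (i - k + l) := by
  unfold ext
  have h1 : (l + k * (p - 1)) % p < p := Nat.mod_lt _ hp
  rw [key_getD_seg x i j (by omega)]
  have h2 := Nat.mod_add_div (l + k * (p - 1)) p
  have h3 : (((l + k * (p - 1)) % p : ℕ) : ℤ) + p * (((l + k * (p - 1)) / p : ℕ) : ℤ) =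
      l + k * ((p : ℤ) - 1) := by
    have := congrArg (Nat.cast : ℕ → ℤ) h2
    push_cast [Nat.cast_sub hp] at this ⊢
    exact this
  rw [← per_mul hx ((((l + k * (p - 1)) / p : ℕ) : ℤ) - k)]
  congr 1
  linear_combination h3

variable [Fintype ι] {Z : List Str}

open Classical in
theorem key_cnt_eq_card (hs : ∀ t, (z t).tail <+: z (σ t))
    (hZ : (Finset.univ.val.map z : Multiset Str) = (Z : Multiset Str)) (x : ℤ → ℕ) {i j : ℤ}
    (hij : i ≤ j) : cnt Z (seg x i j) = (univ.filter (KCov z σ x i j)).card := by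
  have h1 : cnt Z (seg x i j) = (univ.filter fun s => seg x i j <+: z s).card := by
    unfold cnt
    rw [← Multiset.coe_countP, ← hZ, Multiset.countP_map]
    rfl
  rw [h1]
  symm
  refine Finset.card_bij (fun t _ => (σ ^ i) t) (fun t ht => ?_) (fun t _ t' _ h => ?_)
    fun s hs' => ⟨(σ ^ i).symm s, ?_, by simp⟩
  · rw [mem_filter] at ht ⊢
    exact ⟨mem_univ _, (seg_prefix_iff hs x hij t).2 ht.2⟩
  · exact (σ ^ i).injective h
  · rw [mem_filter] at hs' ⊢
    refine ⟨mem_univ _, (seg_prefix_iff hs x hij _).1 ?_⟩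
    simpa using hs'.2

theorem key_countP_range (n : ℕ) (q : ℕ → Bool) :
    (List.range n).countP q = ((Finset.range n).filter fun k => q k = true).card := by
  induction n with
  | zero => simp
  | succ n ih =>
    rw [List.range_succ, List.countP_append, ih, Finset.range_add_one, Finset.filter_insert]
    by_cases h : q n = true
    · rw [if_pos h, Finset.card_insert_of_notMem (by simp)]
      simp [h]
    · rw [if_neg h]
      simp [h]

open Classical in
theorem key_hid_eq_card (hs : ∀ t, (z t).tail <+: z (σ t))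
    (hZ : (Finset.univ.val.map z : Multiset Str) = (Z : Multiset Str)) {x : ℤ → ℕ} {p : ℕ}
    (hp : 0 < p) (hx : ∀ n, x (n + p) = x n) {i j : ℤ} (hij : i + p ≤ j) (m : ℕ) :
    hid Z (seg x i j) p m = (univ.filter (KHidden z σ x i (i + m))).card := by
  have h1 : hid Z (seg x i j) p m = (univ.sigma fun s => (Finset.range (z s).length).filter
      fun k => hidB (seg x i j) p m (z s) k = true).card := by
    unfold hid
    rw [← Multiset.sum_coe, ← Multiset.map_coe, ← hZ, Multiset.map_map, Finset.card_sigma]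
    exact Finset.sum_congr rfl fun s _ => key_countP_range _ _
  rw [h1]
  have hpow : ∀ (k : ℕ) (s : ι), (σ ^ (i - k)) ((σ ^ ((k : ℤ) - i)) s) = s := by
    intro k s
    rw [← Equiv.Perm.mul_apply, ← zpow_add]
    simp
  -- reading `hidB` on the curve
  have hread : ∀ (k : ℕ) (t : ι), hidB (seg x i j) p m (z ((σ ^ (i - k)) t)) k = true →
      1 ≤ k ∧ yOf z σ t (i - k) ≠ x (i - k) ∧
      (∀ n, i - k < n → n < i + m → yOf z σ t n = x n) ∧
      ∃ b, i - k < b ∧ b < gOf z σ t (i - k) ∧ yOf z σ t b ≠ x b := by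
    intro k t h
    obtain ⟨a1, a2, a3, a4, l, a5, a6, a7⟩ := hidB_iff.1 h
    refine ⟨a1, ?_, fun n hn hn' => ?_, i - k + l, by omega, by unfold gOf; omega, ?_⟩
    · rw [getD_eq_yOf hs t _ (by omega), ext_seg hp hx hij] at a3
      simpa using a3
    · have h3 := a4 (n - (i - k)).toNat (by omega) (by omega) (by omega)
      rw [getD_eq_yOf hs t _ (by omega), ext_seg hp hx hij] at h3
      have e : i - k + ((n - (i - k)).toNat : ℤ) = n := by omega
      rwa [e] at h3
    · rwa [getD_eq_yOf hs t _ a5, ext_seg hp hx hij] at a7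
  refine Finset.card_bij (fun sk _ => (σ ^ ((sk.2 : ℤ) - i)) sk.1) (fun sk hsk => ?_)
    (fun sk hsk sk' hsk' h => ?_) fun t ht => ?_
  · obtain ⟨s, k⟩ := sk
    simp only [mem_sigma, mem_univ, mem_filter, true_and] at hsk ⊢
    have h2 := hsk.2
    rw [← hpow k s] at h2
    obtain ⟨a1, a2, a3, a4⟩ := hread k _ h2
    set t := (σ ^ ((k : ℤ) - i)) s
    obtain ⟨b, ⟨b1, b2, b3⟩, hb⟩ := Int.exists_least_of_bdd
      (P := fun b => i - k < b ∧ b < gOf z σ t (i - k) ∧ yOf z σ t b ≠ x b)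
      ⟨i - k, fun b hb => hb.1.le⟩ a4
    have e : i - k + 1 - 1 = i - k := by ring
    refine ⟨i - k + 1, b, by omega, ?_, fun n hn hn' => ?_, by rwa [e], b3, by rwa [e]⟩
    · by_contra hc
      exact b3 (a3 b b1 (by omega))
    · by_contra hc
      have := hb n ⟨by omega, by omega, hc⟩
      omega
  · obtain ⟨s, k⟩ := sk
    obtain ⟨s', k'⟩ := sk'
    simp only [mem_sigma, mem_univ, mem_filter, true_and] at hsk hsk' h
    have h2 := hsk.2
    have h2' := hsk'.2
    rw [← hpow k s] at h2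
    rw [← hpow k' s', ← h] at h2'
    obtain ⟨a1, a2, a3, -⟩ := hread k _ h2
    obtain ⟨a1', a2', a3', -⟩ := hread k' _ h2'
    have hk : k = k' := by
      rcases lt_trichotomy k k' with hlt | heq | hlt
      · exact absurd (a3' _ (by omega) (by omega)) a2
      · exact heq
      · exact absurd (a3 _ (by omega) (by omega)) a2'
    subst hk
    rw [(σ ^ ((k : ℤ) - i)).injective h]
  · obtain ⟨a, b, h1, h2, h3, h4, h5, h6⟩ := (mem_filter.1 ht).2
    obtain ⟨k, hk⟩ : ∃ k : ℕ, a - 1 = i - k := ⟨(i - a + 1).toNat, by omega⟩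
    rw [hk] at h4 h6
    unfold gOf at h6
    refine ⟨⟨(σ ^ (i - k)) t, k⟩, ?_, ?_⟩
    · simp only [mem_sigma, mem_univ, mem_filter, true_and, Finset.mem_range]
      refine ⟨by omega, hidB_iff.2 ⟨by omega, by omega, ?_, fun l hl hl1 hl2 => ?_,
        (b - (i - k)).toNat, by omega, by omega, ?_⟩⟩
      · rw [getD_eq_yOf hs t _ (by omega), ext_seg hp hx hij]
        simpa using h4
      · rw [getD_eq_yOf hs t _ hl, ext_seg hp hx hij]
        exact h3 _ (by omega) (by omega)
      · rw [getD_eq_yOf hs t _ (by omega), ext_seg hp hx hij]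
        have e : i - k + ((b - (i - k)).toNat : ℤ) = b := by omega
        rwa [e]
    · show (σ ^ ((k : ℤ) - i)) ((σ ^ (i - k)) t) = t
      rw [← Equiv.Perm.mul_apply, ← zpow_add]
      simp

theorem key_cov (hs : ∀ t, (z t).tail <+: z (σ t))
    (hZ : (Finset.univ.val.map z : Multiset Str) = (Z : Multiset Str))
    (hrule : ∀ u v, u ≠ [] → rule Z u v ≤ cnt Z u) {x : ℤ → ℕ} {p : ℕ} (hp : 0 < p)
    (hx : ∀ n, x (n + p) = x n) {i j : ℤ} (hij : i + p < j)
    (h : ∃ t, (∀ n, yOf z σ t n = x n) ∧ j ≤ gOf z σ t i) :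
    ∃ t, KCov z σ x i (j - p) t ∧ ¬ KCov z σ x i j t ∧ ¬ KHidden z σ x i (j - p) t := by
  classical
  by_contra hc
  push Not at hc
  obtain ⟨t0, ht0, ht0'⟩ := h
  have lu : (seg x i (j - p)).length = (j - p - i).toNat := key_length_seg _ _ _
  have lv : (seg x i j).length = (j - i).toNat := key_length_seg _ _ _
  have ep : (seg x i j).length - (seg x i (j - p)).length = p := by omega
  have cu := key_cnt_eq_card hs hZ x (show i ≤ j - p by omega)
  have cv := key_cnt_eq_card hs hZ x (show i ≤ j by omega)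
  have hu := key_hid_eq_card hs hZ hp hx hij.le (seg x i (j - p)).length
  have hv := key_hid_eq_card hs hZ hp hx hij.le (seg x i j).length
  have eu : i + ((seg x i (j - p)).length : ℤ) = j - p := by omega
  have ev : i + ((seg x i j).length : ℤ) = j := by omega
  rw [eu] at hu
  rw [ev] at hv
  have hsub : univ.filter (KHidden z σ x i j) ⊆ univ.filter (KCov z σ x i j) := fun t ht =>
    mem_filter.2 ⟨mem_univ _, (mem_filter.1 ht).2.cov hs⟩
  have hlt : (univ.filter (KHidden z σ x i j)).card < (univ.filter (KCov z σ x i j)).card := by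
    refine Finset.card_lt_card ⟨hsub, fun hh => ?_⟩
    obtain ⟨a, b, -, -, -, h4, -⟩ :=
      (mem_filter.1 (hh (mem_filter.2 ⟨mem_univ t0, fun n _ _ => ht0 n, ht0'⟩))).2
    exact h4 (ht0 _)
  have hr := hrule (seg x i (j - p)) (seg x i j) (by
    intro e
    rw [e] at lu
    simp at lu
    omega)
  have c1 : seg x i (j - p) <+: seg x i j := by
    rw [key_prefix_iff_getD]
    refine ⟨by omega, fun l hl => ?_⟩
    rw [key_getD_seg x i j (by omega), key_getD_seg x i (j - p) (by omega)]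
  have c2 : (seg x i j).drop p <+: seg x i j := by
    rw [key_prefix_iff_getD, List.length_drop]
    refine ⟨by omega, fun l hl => ?_⟩
    have e : ((seg x i j).drop p).getD l 0 = (seg x i j).getD (p + l) 0 := by
      simp [List.getD_eq_getElem?_getD]
    rw [e, key_getD_seg x i j (by omega), key_getD_seg x i j (by omega), ← hx]
    congr 1
    push_cast
    ring
  unfold rule at hr
  rw [ep, if_pos ⟨by omega, c1, c2, by rw [hv, cv]; exact hlt⟩, hu, hv, cu, cv] at hr
  have hcov : univ.filter (KCov z σ x i (j - p)) ⊆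
      univ.filter (KHidden z σ x i (j - p)) ∪
        (univ.filter (KCov z σ x i j) \ univ.filter (KHidden z σ x i j)) := by
    intro t ht
    rw [mem_union, mem_sdiff]
    simp only [mem_filter, mem_univ, true_and] at ht ⊢
    by_cases h1 : KHidden z σ x i (j - p) t
    · exact Or.inl h1
    · refine Or.inr ⟨?_, ?_⟩
      · by_contra h2
        exact h1 (hc t ht h2)
      · rintro ⟨a, b, a1, a2, a3⟩
        exact h1 ⟨a, b, a1, by omega, a3⟩
  have h1 := (Finset.card_le_card hcov).trans (Finset.card_union_le _ _)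
  rw [Finset.card_sdiff_of_subset hsub] at h1
  omega

/-- The key lemma. -/
theorem key_perm (z : ι → Str) (σ : Equiv.Perm ι) (hs : ∀ t, (z t).tail <+: z (σ t))
    (hZ : (Finset.univ.val.map z : Multiset Str) = (Z : Multiset Str))
    (hrule : ∀ u v, u ≠ [] → rule Z u v ≤ cnt Z u) (x : ℤ → ℕ) (p : ℕ) (hp : 0 < p)
    (hx : ∀ n, x (n + p) = x n) (i j : ℤ) (hij : i + p < j)
    (h : ∃ t, (∀ n, yOf z σ t n = x n) ∧ j ≤ gOf z σ t i) :
    ∃ t, (∀ n, i ≤ n → n < j - p → yOf z σ t n = x n) ∧ j - p ≤ gOf z σ t i ∧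
      ¬ ((∀ n, i ≤ n → n < j → yOf z σ t n = x n) ∧ j ≤ gOf z σ t i) ∧
      ∀ a b, a ≤ i → j - p ≤ b → (∀ n, a ≤ n → n < b → yOf z σ t n = x n) →
        yOf z σ t (a - 1) ≠ x (a - 1) → yOf z σ t b ≠ x b → gOf z σ t (a - 1) ≤ b := by
  obtain ⟨t, h1, h2, h3⟩ := key_cov hs hZ hrule hp hx hij h
  refine ⟨t, h1.1, h1.2, h2, fun a b a1 a2 a3 a4 a5 => ?_⟩
  by_contra hc
  exact h3 ⟨a, b, a1, a2, a3, a4, a5, by omega⟩

end

end Vale.Agent.P333
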