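import Vale.Agent.P333.Tokens

/-!
The number of tokens is at most the length of every common superstring: the tokens can be placed
at pairwise different places of the superstring.
-/

namespace Vale.Agent.P333

open Finset

section Count

variable {ι : Type*} {F : Finset ι} {z : ι → Str} {Z : List Str}

theorem countP_eq_card {α : Type*} {z : ι → α} {Z' : List α} (h : F.val.map z = (Z' : Multiset α))
    (P : α → Prop) [DecidablePred P] :
    (Z'.countP fun a => decide (P a)) = (F.filter fun t => P (z t)).card := by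
  rw [← Multiset.coe_countP, ← h, Multiset.countP_map]
  rfl

theorem cnt_eq_card (h : F.val.map z = (Z : Multiset Str)) (v : Str) :
    cnt Z v = (F.filter fun t => v <+: z t).card :=
  countP_eq_card h fun a => v <+: a

theorem cntT_eq_card (h : F.val.map z = (Z : Multiset Str)) (v : Str) :
    cntT Z v = (F.filter fun t => v <+: (z t).tail).card :=
  countP_eq_card h fun a => v <+: a.tail

theorem length_eq_card (h : F.val.map z = (Z : Multiset Str)) : Z.length = F.card := by
  rw [← Multiset.coe_card, ← h, Multiset.card_map]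
  rfl

theorem hid_eq_card (h : F.val.map z = (Z : Multiset Str)) (v : Str) (p j : ℕ) :
    hid Z v p j =
      (F.sigma fun t => (range (z t).length).filter fun k => hidB v p j (z t) k = true).card := by
  rw [card_sigma, hid, ← Multiset.sum_coe, ← Multiset.map_coe, ← h, Multiset.map_map]
  refine Finset.sum_congr rfl fun t _ => ?_
  simp only [Function.comp]
  simpa using countP_eq_card (F := range (z t).length) (z := id) (Z' := List.range (z t).length)
    (by rw [Multiset.map_id]; rfl) fun k => hidB v p j (z t) k = true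

end Count

/-- The two-sided `p`-periodic extension of `v`. -/
def extZ (v : Str) (p : ℕ) (n : ℤ) : ℕ := v.getD (n % p).toNat 0

theorem ext_eq {p : ℕ} (hp : 0 < p) (v : Str) (k l : ℕ) :
    ext v p k l = extZ v p ((l : ℤ) - k) := by
  unfold ext extZ
  congr 1
  have h : ((l : ℤ) - k) % p = (((l + k * (p - 1)) % p : ℕ) : ℤ) := by
    push_cast [Nat.cast_sub hp]
    rw [show (l : ℤ) + k * (p - 1) = (l - k) + p * k by ring, Int.add_mul_emod_self_left]
  rw [h, Int.toNat_natCast]

theorem extZ_add (v : Str) (p : ℕ) (n : ℤ) : extZ v p (n + p) = extZ v p n := by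
  unfold extZ
  rw [Int.add_emod_right]

theorem prefix_iff_getD {u v : Str} :
    u <+: v ↔ u.length ≤ v.length ∧ ∀ s < u.length, v.getD s 0 = u.getD s 0 := by
  constructor
  · rintro ⟨r, rfl⟩
    refine ⟨by simp, fun s hs => ?_⟩
    simp [List.getElem?_append_left hs]
  · rintro ⟨h1, h2⟩
    rw [List.prefix_iff_eq_take]
    refine List.ext_getElem (by simp [h1]) fun s hs hs' => ?_
    have := h2 s hs
    rw [List.getD_eq_getElem _ _ hs, List.getD_eq_getElem _ _ (by omega)] at this
    simp [this]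

theorem getD_eq_extZ {v : Str} {p : ℕ} (hp : 0 < p) (h : v.drop p <+: v) :
    ∀ s < v.length, v.getD s 0 = extZ v p s := by
  intro s
  induction s using Nat.strong_induction_on with
  | _ s ih =>
    intro hs
    by_cases hsp : s < p
    · unfold extZ
      rw [Int.emod_eq_of_lt (by omega) (by omega), Int.toNat_natCast]
    · obtain ⟨r, rfl⟩ := Nat.exists_eq_add_of_le (not_lt.mp hsp)
      have h1 := (prefix_iff_getD.mp h).2 r (by rw [List.length_drop]; omega)
      have h2 : (v.drop p).getD r 0 = v.getD (p + r) 0 := by simp [List.getElem?_drop]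
      rw [← h2, ← h1, ih r (by omega) (by omega), ← extZ_add v p r]
      congr 1
      push_cast
      ring

theorem prefix_drop_iff {u T : Str} {n : ℕ} (hu : u ≠ []) :
    u <+: T.drop n ↔ n + u.length ≤ T.length ∧ ∀ s < u.length, T.getD (n + s) 0 = u.getD s 0 := by
  have hpos : 0 < u.length := List.length_pos_iff.mpr hu
  rw [prefix_iff_getD, List.length_drop]
  refine and_congr (by omega) (forall₂_congr fun s _ => ?_)
  simp [List.getElem?_drop]

/-- The places of `T` where `u` occurs. -/
def occ (T u : Str) : Finset ℕ := (range T.length).filter fun n => u <+: T.drop n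

theorem mem_occ {T u : Str} {n : ℕ} (hu : u ≠ []) : n ∈ occ T u ↔ u <+: T.drop n := by
  rw [occ, mem_filter, mem_range, and_iff_right_iff_imp]
  intro h
  have hpos : 0 < u.length := List.length_pos_iff.mpr hu
  have := ((prefix_drop_iff hu).mp h).1
  omega

section Embed

variable {T : Str} {F : Finset ℕ} {z : ℕ → Str} {Z : List Str}

theorem cnt_le_occ (h : F.val.map z = (Z : Multiset Str)) (he : ∀ n ∈ F, z n <+: T.drop n)
    {v : Str} (hv : v ≠ []) : cnt Z v ≤ (occ T v).card := by
  rw [cnt_eq_card h]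
  refine card_le_card fun n hn => ?_
  rw [mem_filter] at hn
  exact (mem_occ hv).mpr (hn.2.trans (he n hn.1))

theorem cntT_le_occ (h : F.val.map z = (Z : Multiset Str)) (he : ∀ n ∈ F, z n <+: T.drop n)
    {v : Str} (hv : v ≠ []) : cntT Z v ≤ (occ T v).card := by
  rw [cntT_eq_card h]
  refine card_le_card_of_injOn (· + 1) (fun n hn => ?_) fun a _ b _ hab => Nat.succ_injective hab
  rw [mem_coe, mem_filter] at hn
  rw [mem_coe, mem_occ hv, ← List.tail_drop]
  obtain ⟨r, hr⟩ := he n hn.1
  refine hn.2.trans ?_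
  rw [← hr]
  cases hz : z n with
  | nil => simp
  | cons a l => simp

/-- The places of the hidden occurrences. -/
def hidSet (F : Finset ℕ) (z : ℕ → Str) (v : Str) (p j : ℕ) : Finset ℕ :=
  (F.sigma fun t => (range (z t).length).filter fun k => hidB v p j (z t) k = true).image
    fun a => a.1 + a.2

theorem mem_hidSet (he : ∀ n ∈ F, z n <+: T.drop n) {v : Str} {p j n : ℕ} (hp : 0 < p)
    (hj : 0 < j) : n ∈ hidSet F z v p j ↔ ∃ t ∈ F, t < n ∧ n + j ≤ t + (z t).length ∧
      T.getD t 0 ≠ extZ v p ((t : ℤ) - n) ∧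
      (∀ m, t < m → m < n + j → T.getD m 0 = extZ v p ((m : ℤ) - n)) ∧
      ∃ m, t < m ∧ m < t + (z t).length ∧ T.getD m 0 ≠ extZ v p ((m : ℤ) - n) := by
  have hz : ∀ t ∈ F, ∀ l < (z t).length, (z t).getD l 0 = T.getD (t + l) 0 := fun t ht l hl =>
    (((prefix_drop_iff (List.ne_nil_of_length_pos (by omega))).mp (he t ht)).2 l hl).symm
  simp only [hidSet, mem_image, mem_sigma, mem_filter, mem_range, hidB_iff, ext_eq hp]
  constructor
  · rintro ⟨⟨t, k⟩, ⟨ht, -, h1, h2, h3, h4, l, hl, h5, h6⟩, rfl⟩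
    dsimp only at *
    refine ⟨t, ht, by omega, by omega, ?_, fun m hm hm' => ?_, t + l, by omega, by omega, ?_⟩
    · rw [hz t ht 0 (by omega)] at h3
      convert h3 using 2
      · rfl
      · push_cast; ring
    · obtain ⟨l', rfl⟩ := Nat.exists_eq_add_of_le hm.le
      rw [← hz t ht l' (by omega), h4 l' (by omega) (by omega) (by omega)]
      congr 1
      push_cast; ring
    · rw [← hz t ht l hl]
      convert h6 using 2
      push_cast; ring
  · rintro ⟨t, ht, h1, h2, h3, h4, m, hm, hm', h5⟩
    obtain ⟨k, rfl⟩ := Nat.exists_eq_add_of_le h1.le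
    obtain ⟨l, rfl⟩ := Nat.exists_eq_add_of_le hm.le
    refine ⟨⟨t, k⟩, ⟨ht, by dsimp only; omega, by dsimp only; omega, by dsimp only; omega, ?_,
      fun l' hl' h6 h7 => ?_, l, by dsimp only; omega, by omega, ?_⟩, rfl⟩
    · dsimp only
      rw [hz t ht 0 (by omega)]
      convert h3 using 2
      · rfl
      · push_cast; ring
    · dsimp only at *
      rw [hz t ht l' hl', h4 (t + l') (by omega) (by omega)]
      congr 1
      push_cast; ring
    · dsimp only
      rw [hz t ht l (by omega)]
      convert h5 using 2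
      push_cast; ring

theorem card_hidSet (h : F.val.map z = (Z : Multiset Str)) (he : ∀ n ∈ F, z n <+: T.drop n)
    (v : Str) {p : ℕ} (hp : 0 < p) (j : ℕ) : (hidSet F z v p j).card = hid Z v p j := by
  have hz : ∀ t ∈ F, ∀ l < (z t).length, (z t).getD l 0 = T.getD (t + l) 0 := fun t ht l hl =>
    (((prefix_drop_iff (List.ne_nil_of_length_pos (by omega))).mp (he t ht)).2 l hl).symm
  have key : ∀ t ∈ F, ∀ t' ∈ F, ∀ k k', hidB v p j (z t) k = true → k < (z t).length →
      hidB v p j (z t') k' = true → t + k = t' + k' → ¬ k < k' := by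
    intro t ht t' ht' k k' h1 hk h2 h3 h4
    obtain ⟨a0, -, a1, -, -⟩ := hidB_iff.mp h1
    obtain ⟨-, b1, -, b2, -⟩ := hidB_iff.mp h2
    have b3 := b2 (k' - k) (by omega) (by omega) (by omega)
    rw [hz t' ht' _ (by omega), ext_eq hp] at b3
    rw [hz t ht 0 (by omega), ext_eq hp] at a1
    apply a1
    rw [show t + 0 = t' + (k' - k) by omega, b3]
    congr 1
    push_cast [Nat.cast_sub h4.le]
    ring
  rw [hid_eq_card h, hidSet]
  refine card_image_of_injOn ?_
  rintro ⟨t, k⟩ h1 ⟨t', k'⟩ h2 h3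
  simp only [coe_sigma, Set.mem_sigma_iff, mem_coe, mem_filter, mem_range] at h1 h2
  dsimp only at h3
  have a1 := key t h1.1 t' h2.1 k k' h1.2.2 h1.2.1 h2.2.2 h3
  have a2 := key t' h2.1 t h1.1 k' k h2.2.2 h2.2.1 h1.2.2 h3.symm
  obtain rfl : k = k' := by omega
  obtain rfl : t = t' := by omega
  rfl

theorem rule_le_occ (h : F.val.map z = (Z : Multiset Str)) (he : ∀ n ∈ F, z n <+: T.drop n)
    {u : Str} (hu : u ≠ []) (v : Str) : rule Z u v ≤ (occ T u).card := by
  unfold rule
  split_ifs with hc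
  swap
  · exact Nat.zero_le _
  obtain ⟨hlt, huv, hper, hcnt⟩ := hc
  set p := v.length - u.length with hpdef
  have hp : 0 < p := by omega
  have hupos : 0 < u.length := List.length_pos_iff.mpr hu
  have hv : v ≠ [] := List.ne_nil_of_length_pos (by omega)
  have hvX := getD_eq_extZ hp hper
  have huX : ∀ s < u.length, u.getD s 0 = extZ v p s := fun s hs => by
    rw [← (prefix_iff_getD.mp huv).2 s hs, hvX s (by omega)]
  have hlen : ∀ t ∈ F, 0 < (z t).length → t + (z t).length ≤ T.length := fun t ht h0 =>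
    ((prefix_drop_iff (List.ne_nil_of_length_pos h0)).mp (he t ht)).1
  have occ_iff : ∀ {w : Str}, w ≠ [] → (∀ s < w.length, w.getD s 0 = extZ v p s) → ∀ n,
      n ∈ occ T w ↔ n + w.length ≤ T.length ∧
        ∀ m, n ≤ m → m < n + w.length → T.getD m 0 = extZ v p ((m : ℤ) - n) := by
    intro w hw hX n
    rw [mem_occ hw, prefix_drop_iff hw]
    refine and_congr_right fun _ => ⟨fun h1 m hm hm' => ?_, fun h1 s hs => ?_⟩
    · obtain ⟨s, rfl⟩ := Nat.exists_eq_add_of_le hm
      rw [h1 s (by omega), hX s (by omega)]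
      congr 1
      push_cast; ring
    · rw [h1 (n + s) (by omega) (by omega), hX s hs]
      congr 1
      push_cast; ring
  have hOu := occ_iff hu huX
  have hOv := occ_iff hv hvX
  have hHu := fun n => mem_hidSet he (v := v) (n := n) hp hupos
  have hHv := fun n => mem_hidSet he (v := v) (n := n) hp (hupos.trans hlt)
  rw [← card_hidSet h he v hp, ← card_hidSet h he v hp]
  rw [← card_hidSet h he v hp] at hcnt
  have hcv := cnt_le_occ h he hv
  set Hu := hidSet F z v p u.length
  set Hv := hidSet F z v p v.length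
  have s1 : Hu ⊆ occ T u := fun n hn => by
    obtain ⟨t, ht, h1, h2, -, h4, -⟩ := (hHu n).mp hn
    have := hlen t ht (by omega)
    exact (hOu n).mpr ⟨by omega, fun m hm hm' => h4 m (by omega) hm'⟩
  have s2 : occ T v ⊆ occ T u := fun n hn => by
    obtain ⟨h1, h2⟩ := (hOv n).mp hn
    exact (hOu n).mpr ⟨by omega, fun m hm hm' => h2 m hm (by omega)⟩
  have s3 : Hv ⊆ Hu := fun n hn => by
    obtain ⟨t, ht, h1, h2, h3, h4, h5⟩ := (hHv n).mp hn
    exact (hHu n).mpr ⟨t, ht, h1, by omega, h3, fun m hm hm' => h4 m hm (by omega), h5⟩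
  have s4 : ∀ n ∈ Hu, n ∈ occ T v → n ∈ Hv := fun n hn hn' => by
    obtain ⟨t, ht, h1, h2, h3, h4, m, h5, h6, h7⟩ := (hHu n).mp hn
    obtain ⟨h8, h9⟩ := (hOv n).mp hn'
    have hall : ∀ m, t < m → m < n + v.length → T.getD m 0 = extZ v p ((m : ℤ) - n) :=
      fun m hm hm' => by
        by_cases hmn : n ≤ m
        · exact h9 m hmn hm'
        · exact h4 m hm (by omega)
    have : ¬ m < n + v.length := fun hm => h7 (hall m h5 hm)
    exact (hHv n).mpr ⟨t, ht, h1, by omega, h3, hall, m, h5, h6, h7⟩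
  have hne : (occ T v \ Hv).Nonempty := by
    rw [← card_pos]
    have := le_card_sdiff Hv (occ T v)
    omega
  obtain ⟨n, hn, hmax⟩ := exists_max_image (occ T v \ Hv) id hne
  obtain ⟨hn1, hn2⟩ := mem_sdiff.mp hn
  obtain ⟨a1, a2⟩ := (hOv n).mp hn1
  have hshift : ∀ m : ℕ, extZ v p ((m : ℤ) - (n + p : ℕ)) = extZ v p ((m : ℤ) - n) := fun m => by
    rw [← extZ_add v p]
    congr 1
    push_cast; ring
  have b1 : n + p ∈ occ T u := (hOu _).mpr ⟨by omega, fun m hm hm' => by
    rw [hshift, a2 m (by omega) (by omega)]⟩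
  have b2 : n + p ∉ Hu := fun hn' => by
    obtain ⟨t, ht, h1, h2, h3, h4, m, h5, h6, h7⟩ := (hHu _).mp hn'
    rw [hshift] at h3 h7
    have : ¬ n ≤ t := fun hnt => h3 (a2 t hnt (by omega))
    exact hn2 ((hHv n).mpr ⟨t, ht, by omega, by omega, h3,
      fun m hm hm' => by rw [← hshift, h4 m hm (by omega)], m, h5, h6, h7⟩)
  have b3 : n + p ∉ occ T v \ Hv := fun hn' => by
    have := hmax _ hn'
    simp only [id] at this
    omega
  have hdisj : Disjoint Hu (occ T v \ Hv) := disjoint_left.mpr fun a ha ha' =>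
    (mem_sdiff.mp ha').2 (s4 a ha (mem_sdiff.mp ha').1)
  have hsub : insert (n + p) (Hu ∪ (occ T v \ Hv)) ⊆ occ T u :=
    insert_subset b1 (union_subset s1 (sdiff_subset.trans s2))
  have hc := card_le_card hsub
  rw [card_insert_of_notMem (by simp only [mem_union, not_or]; exact ⟨b2, b3⟩),
    card_union_of_disjoint hdisj] at hc
  have := le_card_sdiff Hv (occ T v)
  omega

end Embed

/-- The members of `Z` can be placed at pairwise different places of `T`. -/
def Emb (T : Str) (Z : List Str) : Prop :=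
  ∃ (F : Finset ℕ) (z : ℕ → Str), F.val.map z = (Z : Multiset Str) ∧ ∀ n ∈ F, z n <+: T.drop n

theorem Emb.addTok {T : Str} {Z : List Str} (hE : Emb T Z) {uv : Str × Str} (hu : uv.1 ≠ [])
    (hT : uv.1 <:+: T) (hl : ∀ a ∈ Z, uv.1.length ≤ a.length) : Emb T (addTok Z uv) := by
  obtain ⟨F, z, h, he⟩ := hE
  obtain ⟨u, v⟩ := uv
  dsimp only at hu hT hl
  have h1 : req Z u v ≤ (occ T u).card := by
    refine max_le (max_le ?_ (cntT_le_occ h he hu)) (rule_le_occ h he hu v)
    obtain ⟨a, b, rfl⟩ := hT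
    refine card_pos.mpr ⟨a.length, (mem_occ hu).mpr ?_⟩
    rw [List.append_assoc, List.drop_left]
    exact List.prefix_append _ _
  have h2 : (occ T u ∩ F).card ≤ cnt Z u := by
    rw [cnt_eq_card h]
    refine card_le_card fun n hn => ?_
    obtain ⟨hn1, hn2⟩ := mem_inter.mp hn
    refine mem_filter.mpr ⟨hn2, List.prefix_of_prefix_length_le ((mem_occ hu).mp hn1)
      (he n hn2) (hl _ ?_)⟩
    rw [← Multiset.mem_coe, ← h]
    exact Multiset.mem_map_of_mem _ hn2
  have h3 : req Z u v - cnt Z u ≤ (occ T u \ F).card := by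
    have := card_sdiff_add_card_inter (occ T u) F
    omega
  obtain ⟨G, hG, hc⟩ := exists_subset_card_eq h3
  have hd : Disjoint F G := disjoint_left.mpr fun a ha ha' => (mem_sdiff.mp (hG ha')).2 ha
  refine ⟨F.disjUnion G hd, fun n => if n ∈ F then z n else u, ?_, fun n hn => ?_⟩
  · rw [disjUnion_val, Multiset.map_add, Vale.Agent.P333.addTok, ← Multiset.coe_add, ← h,
      Multiset.coe_replicate]
    congr 1
    · exact Multiset.map_congr rfl fun n hn => if_pos hn
    · rw [← hc, Multiset.eq_replicate]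
      refine ⟨by simp, fun b hb => ?_⟩
      obtain ⟨n, hn, rfl⟩ := Multiset.mem_map.mp hb
      exact if_neg fun hn' => disjoint_left.mp hd hn' hn
  · by_cases hn' : n ∈ F
    · simpa [hn'] using he n hn'
    · have hnG : n ∈ G := (mem_disjUnion.mp hn).resolve_left hn'
      simpa [hn'] using (mem_occ hu).mp (mem_sdiff.mp (hG hnG)).1

theorem emb_foldl {T : Str} {l : List (Str × Str)}
    (hl : l.Pairwise fun a b => b.1.length ≤ a.1.length)
    (hT : ∀ uv ∈ l, uv.1 ≠ [] ∧ uv.1 <:+: T) : Emb T (l.foldl addTok []) := by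
  induction l using List.reverseRecOn with
  | nil => exact ⟨∅, fun _ => [], rfl, by simp⟩
  | append_singleton l uv ih =>
    rw [List.pairwise_append] at hl
    rw [List.foldl_append, List.foldl_cons, List.foldl_nil]
    refine (ih hl.1 fun a ha => hT a (by simp [ha])).addTok (hT uv (by simp)).1
      (hT uv (by simp)).2 fun a ha => ?_
    obtain ⟨c, hc, rfl⟩ := foldl_addTok_mem l a ha
    exact hl.2.2 c hc uv (by simp)

theorem Emb.length_le {T : Str} {Z : List Str} (hE : Emb T Z) (hne : ∀ a ∈ Z, a ≠ []) :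
    Z.length ≤ T.length := by
  obtain ⟨F, z, h, he⟩ := hE
  rw [length_eq_card h, ← card_range T.length]
  refine card_le_card fun n hn => ?_
  have hz : z n ≠ [] := hne _ (by
    rw [← Multiset.mem_coe, ← h]
    exact Multiset.mem_map_of_mem _ hn)
  exact (mem_filter.mp ((mem_occ hz).mpr (he n hn))).1

theorem foldl_addTok_le {S : List Str} {T : Str} (h : IsSuperstring S T) (i : ℕ) :
    (((pairs S).take i).foldl addTok []).length ≤ T.length := by
  have hT : ∀ uv ∈ (pairs S).take i, uv.1 ≠ [] ∧ uv.1 <:+: T := fun uv huv => by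
    obtain ⟨h1, s, hs, h2⟩ := mem_subs.mp (mem_pairs.mp (List.mem_of_mem_take huv)).1
    exact ⟨h1, h2.trans (h s hs)⟩
  refine (emb_foldl ((pairs_sorted S).sublist (List.take_sublist _ _)) hT).length_le fun a ha => ?_
  obtain ⟨c, hc, rfl⟩ := foldl_addTok_mem _ a ha
  exact (hT c hc).1

theorem tokens_le {S : List Str} {T : Str} (h : IsSuperstring S T) :
    (tokens S).length ≤ T.length := by
  have := foldl_addTok_le h (pairs S).length
  rwa [List.take_length] at this

end Vale.Agent.P333
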