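import Vale.Agent.P333.Layers

/-!
The main loop: from the existence of moves to the correctness of the algorithm.
-/

namespace Vale.Agent.P333

open Classical in
/-- The statement that a valid move exists as long as some token is not covered. -/
def ExistsMove : Prop :=
  ∀ {C K : List (List Str)}, (∀ L ∈ C ++ K, Closed L) → (∀ z ∈ (C ++ K).flatten, z ≠ []) →
    (∀ u v, u ≠ [] → rule (C ++ K).flatten u v ≤ cnt (C ++ K).flatten u) →
    ∀ {NA : Str → Prop}, NA [] → (∀ L ∈ C, ∀ w, LNode L w → NA w) →
    ∀ {s : Str}, s ∈ K.flatten → (∀ z ∈ C.flatten, ¬ s <+: z) →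
    ∃ gc ∈ cands K, gc.1.drop gc.2 <+: gc.1 ∧ (∃ w, NA w ∧ LNode (loop gc) w) ∧
      gc.2 ≤ (K.filter fun L => decide (∃ w, LNode L w ∧ LNode (loop gc) w)).flatten.length

theorem hid_perm {Z Z' : List Str} (h : Z.Perm Z') (v : Str) (p j : ℕ) :
    hid Z v p j = hid Z' v p j :=
  (h.map _).sum_eq

theorem rule_perm {Z Z' : List Str} (h : Z.Perm Z') (u v : Str) : rule Z u v = rule Z' u v := by
  simp only [rule, hid_perm h, cnt_perm h]

theorem cands_bounds {K : List (List Str)} {gc : Str × ℕ} (h : gc ∈ cands K) :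
    1 ≤ gc.2 ∧ gc.2 ≤ gc.1.length := by
  simp only [cands, List.mem_flatMap, List.mem_range, List.mem_map] at h
  obtain ⟨L, -, k, -, n, -, c, hc, rfl⟩ := h
  simp only [word, List.length_map, List.length_range]
  omega

theorem loop_length (gc : Str × ℕ) : (loop gc).length = gc.2 := by simp [loop]

theorem walk_loop (g : Str) (c : ℕ) :
    Walk g ((List.range c).map fun l => g.drop l) (g.drop c) := by
  induction c with
  | zero => exact List.prefix_refl _
  | succ c ih =>
    rw [List.range_succ, List.map_append]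
    refine ih.append ⟨List.prefix_refl _, ?_⟩
    rw [List.tail_drop]
    exact List.prefix_refl _

theorem loop_closed {gc : Str × ℕ} (h1 : 1 ≤ gc.2) (h2 : gc.1.drop gc.2 <+: gc.1) :
    Closed (loop gc) := by
  refine ⟨fun h => ?_, gc.1, (walk_loop gc.1 gc.2).mono_right h2⟩
  have := loop_length gc
  rw [h] at this
  simp at this
  omega

theorem loop_ne {gc : Str × ℕ} (h : gc.2 ≤ gc.1.length) : ∀ z ∈ loop gc, z ≠ [] := by
  intro z hz
  obtain ⟨l, hl, rfl⟩ := List.mem_map.1 hz
  rw [List.mem_range] at hl
  intro he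
  rw [List.drop_eq_nil_iff] at he
  omega

theorem anode_nil {A : List Str} (h : Walk [] A []) : ANode A [] :=
  ⟨[], A, rfl, List.prefix_refl _, h⟩

theorem length_flatten_filter_le (D : List (List Str)) (p : List Str → Bool) :
    (D.filter p).flatten.length ≤ D.flatten.length := by
  induction D with
  | nil => simp
  | cons L D ih =>
    rw [List.filter_cons]
    split
    · simp only [List.flatten_cons, List.length_append]
      omega
    · simp only [List.flatten_cons, List.length_append]
      omega

section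

variable {Ls : List (List Str)} (hcl : ∀ L ∈ Ls, Closed L) (hne : ∀ z ∈ Ls.flatten, z ≠ [])
include hcl

theorem Inv.closed {st : List Str × List (List Str)} (h : Inv Ls st) : ∀ L ∈ st.2, Closed L := by
  obtain ⟨C, hC, -⟩ := h.conn
  exact fun L hL => hcl L (hC.symm.subset (List.mem_append_right _ hL))

include hne

/-- A valid move keeps the invariant and connects at least one token. -/
theorem Inv.res {st : List Str × List (List Str)} (h : Inv Ls st) {gc : Str × ℕ}
    (hc : gc ∈ cands st.2) (hok : ok st gc = true) :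
    Inv Ls (res st gc) ∧ (res st gc).2.flatten.length < st.2.flatten.length := by
  obtain ⟨hc1, hc2⟩ := cands_bounds hc
  simp only [ok, Bool.and_eq_true, decide_eq_true_eq] at hok
  obtain ⟨⟨h1, h2⟩, h3⟩ := hok
  obtain ⟨A', hA'⟩ := Option.isSome_iff_exists.1 h2
  obtain ⟨g1, g2, g3, -⟩ := spl_some h.walk (loop_closed hc1 h1) hA'
  have e : P333.res st gc = absorb A' st.2 := by simp [P333.res, hA']
  rw [e] at h3 ⊢
  obtain ⟨D, k1, k2, k3, k4, k5, -⟩ := absorb_ok g1 (h.closed hcl)
  obtain ⟨C, hC, hC'⟩ := h.conn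
  have hlen := k1.flatten.length_eq
  have hlen2 := k3.length_eq
  have hlen3 := g2.length_eq
  have hlen4 := h.len
  rw [List.flatten_append, List.length_append] at hlen
  rw [List.length_append] at hlen2
  rw [List.length_append, loop_length] at hlen3
  refine ⟨⟨k2, fun z hz => ?_, ⟨C ++ D, ?_, fun L hL w hw => ?_⟩, by omega⟩, by omega⟩
  · rcases List.mem_append.1 (k3.subset hz) with hz | hz
    · rcases List.mem_append.1 (g2.subset hz) with hz | hz
      · exact h.ne z hz
      · exact loop_ne hc2 z hz
    · obtain ⟨L, hL, hz⟩ := List.mem_flatten.1 hz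
      exact hne z (List.mem_flatten.2 ⟨L, hC.symm.subset (List.mem_append_right _
        (k1.symm.subset (List.mem_append_left _ hL))), hz⟩)
  · rw [List.append_assoc]
    exact hC.trans (k1.append_left C)
  · rcases List.mem_append.1 hL with hL | hL
    · exact k4 w (g3 w (hC' L hL w hw))
    · exact k5 L hL w hw

theorem Inv.step {st : List Str × List (List Str)} (h : Inv Ls st) :
    Inv Ls (step st) ∧ ((step st).2.flatten.length < st.2.flatten.length ∨
      (step st = st ∧ ∀ gc ∈ cands st.2, ok st gc ≠ true)) := by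
  cases hf : (cands st.2).find? (ok st) with
  | none =>
    have e : P333.step st = st := by simp [P333.step, hf]
    rw [e]
    exact ⟨h, Or.inr ⟨rfl, fun gc hgc => List.find?_eq_none.1 hf gc hgc⟩⟩
  | some gc =>
    have e : P333.step st = P333.res st gc := by simp [P333.step, hf]
    rw [e]
    have := h.res hcl hne (List.mem_of_find?_eq_some hf) (List.find?_some hf)
    exact ⟨this.1, Or.inl this.2⟩

theorem Inv.iterate {st : List Str × List (List Str)} (h : Inv Ls st) (n : ℕ) :
    Inv Ls (P333.step^[n] st) ∧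
      ((P333.step^[n] st).2.flatten.length + n ≤ st.2.flatten.length ∨
        ∀ gc ∈ cands (P333.step^[n] st).2, ok (P333.step^[n] st) gc ≠ true) := by
  induction n with
  | zero => exact ⟨h, Or.inl le_rfl⟩
  | succ n ih =>
    rw [Function.iterate_succ_apply']
    obtain ⟨h1, h2⟩ := ih.1.step hcl hne
    refine ⟨h1, ?_⟩
    rcases h2 with h2 | ⟨h2, h3⟩
    · rcases ih.2 with h4 | h4
      · left
        omega
      · have e : P333.step (P333.step^[n] st) = P333.step^[n] st := by
          have hf := List.find?_eq_none.2 h4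
          simp [P333.step, hf]
        rw [e] at h2
        omega
    · rw [h2]
      exact Or.inr h3

/-- If there is no valid move, every token is a substring of the output. -/
theorem Inv.final (hM : ExistsMove)
    (hrule : ∀ u v, u ≠ [] → rule Ls.flatten u v ≤ cnt Ls.flatten u)
    {st : List Str × List (List Str)} (h : Inv Ls st)
    (hfin : st.2.flatten = [] ∨ ∀ gc ∈ cands st.2, ok st gc ≠ true) {s : Str}
    (hs : s ∈ Ls.flatten) : s <:+: st.1.map fun z => z.headD 0 := by
  classical
  obtain ⟨C, hC, hC'⟩ := h.conn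
  by_cases hsC : ∃ z ∈ C.flatten, s <+: z
  · obtain ⟨z, hz, hsz⟩ := hsC
    obtain ⟨L, hL, hz⟩ := List.mem_flatten.1 hz
    have hLc : Closed L := hcl L (hC.symm.subset (List.mem_append_left _ hL))
    exact hsz.isInfix.trans ((hC' L hL z (hLc.lnode_of_mem hz)).isInfix h.ne)
  exfalso
  have hsK : s ∈ st.2.flatten := by
    have := hC.flatten.subset hs
    rw [List.flatten_append] at this
    exact (List.mem_append.1 this).resolve_left fun hh => hsC ⟨s, hh, List.prefix_refl _⟩
  rcases hfin with hfin | hfin
  · rw [hfin] at hsK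
    exact absurd hsK List.not_mem_nil
  obtain ⟨gc, hgc, h1, ⟨w, hw1, hw2⟩, h3⟩ := hM (C := C) (K := st.2)
    (fun L hL => hcl L (hC.symm.subset hL)) (fun z hz => hne z (hC.flatten.symm.subset hz))
    (fun u v hu => by
      rw [← rule_perm hC.flatten, ← cnt_perm hC.flatten]
      exact hrule u v hu)
    (NA := ANode st.1) (anode_nil h.walk) hC' hsK (fun z hz hsz => hsC ⟨z, hz, hsz⟩)
  refine hfin gc hgc ?_
  have h2 := spl_isSome hw1 hw2
  obtain ⟨A', hA'⟩ := Option.isSome_iff_exists.1 h2
  obtain ⟨g1, -, -, g4⟩ := spl_some h.walk hw2.closed hA'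
  have e : P333.res st gc = absorb A' st.2 := by simp [P333.res, hA']
  obtain ⟨D, k1, -, -, -, -, k6⟩ := absorb_ok g1 (h.closed hcl)
  simp only [ok, Bool.and_eq_true, decide_eq_true_eq]
  refine ⟨⟨h1, h2⟩, ?_⟩
  rw [e]
  have hlen := k1.flatten.length_eq
  rw [List.flatten_append, List.length_append] at hlen
  have hf := (k1.filter fun L => decide (∃ w, LNode L w ∧ LNode (loop gc) w)).flatten.length_eq
  have hnil : ((absorb A' st.2).2.filter
      fun L => decide (∃ w, LNode L w ∧ LNode (loop gc) w)) = [] := by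
    rw [List.filter_eq_nil_iff]
    intro L hL hh
    obtain ⟨v, hv1, hv2⟩ := of_decide_eq_true hh
    exact k6 L hL v hv1 (g4 v hv2)
  rw [List.filter_append, hnil, List.append_nil] at hf
  have hle := length_flatten_filter_le D
    fun L => decide (∃ w, LNode L w ∧ LNode (loop gc) w)
  have h3' : gc.2 ≤ (st.2.filter
      fun L => decide (∃ w, LNode L w ∧ LNode (loop gc) w)).flatten.length := by
    convert h3
  omega

end

theorem inv_init (Ls : List (List Str)) : Inv Ls ([], Ls) :=
  ⟨List.prefix_refl _, by simp, ⟨[], by simp, by simp⟩, by simp⟩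

theorem approx_super_of (hM : ExistsMove) {S : List Str} (hT : TokOK S (tokens S)) :
    IsSuperstring S (approx S) := by
  obtain ⟨hp, hcl⟩ := layers_ok hT.sorted hT.bal
  have hne : ∀ z ∈ (layers (tokens S)).flatten, z ≠ [] := fun z hz => (hT.mem z (hp.subset hz)).1
  obtain ⟨h1, h2⟩ := (inv_init (layers (tokens S))).iterate hcl hne (tokens S).length
  intro s hs
  by_cases hs0 : s = []
  · rw [hs0]
    exact List.nil_infix
  obtain ⟨z, hz, hsz⟩ := cnt_pos_iff.1 (hT.one s hs0 ⟨s, hs, List.infix_refl _⟩)
  refine hsz.isInfix.trans (h1.final hcl hne hM (fun u v hu => ?_) ?_ (hp.symm.subset hz))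
  · rw [rule_perm hp, cnt_perm hp]
    exact hT.rule u v hu
  · refine h2.imp_left fun h => List.eq_nil_of_length_eq_zero ?_
    have := hp.length_eq
    simp only at h
    omega

theorem approx_length_of {S : List Str} (hT : TokOK S (tokens S)) :
    (approx S).length ≤ 2 * (tokens S).length := by
  obtain ⟨hp, hcl⟩ := layers_ok hT.sorted hT.bal
  have hne : ∀ z ∈ (layers (tokens S)).flatten, z ≠ [] := fun z hz => (hT.mem z (hp.subset hz)).1
  obtain ⟨h1, -⟩ := (inv_init (layers (tokens S))).iterate hcl hne (tokens S).length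
  have := h1.len
  rw [hp.length_eq] at this
  rw [approx, List.length_map]
  omega

end Vale.Agent.P333
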