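import Vale.Agent.P333.Cyc
import Vale.Agent.P333.Core
import Vale.Agent.P333.Main
import Mathlib.Algebra.Group.End
import Mathlib.Algebra.BigOperators.Fin
import Mathlib.Data.Fintype.BigOperators

/-!
Existence of a valid move, for layers given as lists.
-/

namespace Vale.Agent.P333

/-- The consequence of the counting rule that is used in the main lemma. -/
def KeyPerm : Prop :=
  ∀ {ι : Type} [Fintype ι] (z : ι → Str) (σ : Equiv.Perm ι), (∀ t, z t ≠ []) →
    (∀ t, (z t).tail <+: z (σ t)) → ∀ {Z : List Str},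
    (Finset.univ.val.map z : Multiset Str) = (Z : Multiset Str) →
    (∀ u v, u ≠ [] → rule Z u v ≤ cnt Z u) → ∀ (x : ℤ → ℕ) (p : ℕ), 0 < p →
    (∀ n, x (n + p) = x n) → ∀ i j : ℤ, i + p < j →
    (∃ t, (∀ n : ℤ, (z ((σ ^ n) t)).headD 0 = x n) ∧ j ≤ i + (z ((σ ^ i) t)).length) →
    ∃ t, (∀ n : ℤ, i ≤ n → n < j - p → (z ((σ ^ n) t)).headD 0 = x n) ∧
      j - p ≤ i + (z ((σ ^ i) t)).length ∧
      ¬ ((∀ n : ℤ, i ≤ n → n < j → (z ((σ ^ n) t)).headD 0 = x n) ∧
        j ≤ i + (z ((σ ^ i) t)).length) ∧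
      ∀ a b : ℤ, a ≤ i → j - p ≤ b →
        (∀ n : ℤ, a ≤ n → n < b → (z ((σ ^ n) t)).headD 0 = x n) →
        (z ((σ ^ (a - 1)) t)).headD 0 ≠ x (a - 1) → (z ((σ ^ b) t)).headD 0 ≠ x b →
        a - 1 + (z ((σ ^ (a - 1)) t)).length ≤ b

section Family

variable {G : Type} (lst : G → List Str)

/-- Tokens of a family of layers. -/
abbrev Pos : Type := Σ γ : G, Fin (lst γ).length

variable {lst}

/-- Move `n` steps along the layer. -/
def Pos.sh (n : ℤ) (t : Pos lst) : Pos lst :=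
  ⟨t.1, ⟨((t.2.val + n) % (lst t.1).length).toNat, toNat_emod_lt t.2.pos _⟩⟩

theorem Pos.sh_val (n : ℤ) (t : Pos lst) :
    ((t.sh n).2.val : ℤ) = (t.2.val + n) % (lst t.1).length :=
  Int.toNat_of_nonneg (Int.emod_nonneg _ (by have := t.2.pos; omega))

theorem Pos.sh_sh (m n : ℤ) (t : Pos lst) : (t.sh n).sh m = t.sh (m + n) := by
  refine Sigma.ext rfl (heq_of_eq (Fin.ext ?_))
  have h1 := Pos.sh_val m (t.sh n)
  have h2 := Pos.sh_val (m + n) t
  rw [Pos.sh_val n t] at h1
  have h3 : ((t.2.val + n) % (lst t.1).length + m) % ((lst (t.sh n).1).length : ℤ) =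
      (t.2.val + (m + n)) % (lst t.1).length := by
    show ((t.2.val + n) % (lst t.1).length + m) % ((lst t.1).length : ℤ) = _
    rw [Int.emod_add_emod]
    congr 1
    ring
  omega

theorem Pos.sh_zero (t : Pos lst) : t.sh 0 = t := by
  refine Sigma.ext rfl (heq_of_eq (Fin.ext ?_))
  have h1 := Pos.sh_val 0 t
  have h2 := t.2.isLt
  rw [add_zero, Int.emod_eq_of_lt (by omega) (by omega)] at h1
  omega

/-- The successor permutation. -/
def Pos.perm : Equiv.Perm (Pos lst) where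
  toFun := Pos.sh 1
  invFun := Pos.sh (-1)
  left_inv t := by rw [Pos.sh_sh, neg_add_cancel, Pos.sh_zero]
  right_inv t := by rw [Pos.sh_sh, add_neg_cancel, Pos.sh_zero]

theorem Pos.perm_zpow (n : ℤ) : ∀ t : Pos lst, (Pos.perm ^ n) t = t.sh n := by
  induction n using Int.induction_on with
  | zero => intro t; rw [zpow_zero, Pos.sh_zero]; rfl
  | succ k ih =>
    intro t
    rw [zpow_add_one, Equiv.Perm.mul_apply, ih]
    exact Pos.sh_sh _ _ t
  | pred k ih =>
    intro t
    rw [zpow_sub_one, Equiv.Perm.mul_apply, ih]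
    exact Pos.sh_sh _ _ t

/-- The string of a token. -/
def Pos.z (t : Pos lst) : Str := (lst t.1)[t.2.val]

theorem Pos.z_sh (n : ℤ) (t : Pos lst) : (t.sh n).z = tok (lst t.1) (t.2.val + n) := by
  rw [tok_eq (List.length_pos_iff.1 t.2.pos)]
  rfl

theorem Pos.z_eq (t : Pos lst) : t.z = tok (lst t.1) (t.2.val + 0) := by
  rw [← Pos.z_sh, Pos.sh_zero]

theorem Pos.map_z [Fintype G] :
    (Finset.univ.val.map (Pos.z (lst := lst)) : Multiset Str) = ∑ γ, (lst γ : Multiset Str) := by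
  have h1 : ∀ {α : Type} (s : Finset α) (f : α → Str),
      s.val.map f = ∑ x ∈ s, ({f x} : Multiset Str) := by
    intro α s f
    rw [Finset.sum, ← Multiset.sum_map_singleton (s.val.map f), Multiset.map_map]
    rfl
  rw [h1, Fintype.sum_sigma]
  refine Finset.sum_congr rfl fun γ _ => ?_
  rw [← h1, Fin.univ_val_map]
  congr 1
  exact List.ofFn_getElem

/-- The geometric setting defined by a family of closed walks. -/
def geo [Fintype G] (hkey : KeyPerm) (hcl : ∀ γ, Closed (lst γ)) (hne : ∀ γ, ∀ z ∈ lst γ, z ≠ []) {Z : List Str}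
    (hZ : ∑ γ, (lst γ : Multiset Str) = (Z : Multiset Str))
    (hrule : ∀ u v, u ≠ [] → rule Z u v ≤ cnt Z u) : Geo (Pos lst) G where
  y t n := (tok (lst t.1) (t.2.val + n)).headD 0
  g t n := n + (tok (lst t.1) (t.2.val + n)).length
  lay t := t.1
  q γ := (lst γ).length
  sh := Pos.sh
  sh_inj k t t' h := by
    have := congrArg (Pos.sh (-k)) h
    rwa [Pos.sh_sh, Pos.sh_sh, neg_add_cancel, Pos.sh_zero, Pos.sh_zero] at this
  y_sh k t n := by rw [← Pos.z_sh, ← Pos.z_sh, Pos.sh_sh]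
  g_sh k t n := by
    rw [← Pos.z_sh, ← Pos.z_sh, Pos.sh_sh]
    ring
  lay_sh _ _ := rfl
  q_pos t := t.2.pos
  y_q t n := by rw [← add_assoc, tok_add_length]
  g_succ t n := by
    have h1 := ((hcl t.1).tok_succ (t.2.val + n)).length_le
    rw [List.length_tail, add_assoc] at h1
    omega
  g_gt t n := by
    have := List.length_pos_iff.2 (hne t.1 _ (tok_mem (hcl t.1).1 (t.2.val + n)))
    omega
  key x p hp hx i j hij h := by
    have := hkey Pos.z Pos.perm (fun t => hne t.1 _ (List.getElem_mem _))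
      (fun t => by
        show t.z.tail <+: (t.sh 1).z
        rw [Pos.z_eq, Pos.z_sh, add_zero]
        exact (hcl t.1).tok_succ _)
      (Pos.map_z.trans hZ) hrule x p hp hx i j hij
      (by simpa only [Pos.perm_zpow, Pos.z_sh] using h)
    simpa only [Pos.perm_zpow, Pos.z_sh] using this

theorem lnode_seg (hcl : ∀ γ, Closed (lst γ)) (t : Pos lst) {a b : ℤ}
    (h1 : a - 1 + (tok (lst t.1) (t.2.val + (a - 1))).length ≤ b)
    (h2 : b ≤ a + (tok (lst t.1) (t.2.val + a)).length) :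
    LNode (lst t.1) (seg (fun n => (tok (lst t.1) (t.2.val + n)).headD 0) a b) := by
  have hs : ∀ n : ℤ, (tok (lst t.1) (t.2.val + n)).tail <+: tok (lst t.1) (t.2.val + (n + 1)) :=
    fun n => by rw [← add_assoc]; exact (hcl t.1).tok_succ _
  have h3 := seg_prefix_of_chain (f := fun n => tok (lst t.1) (t.2.val + n)) hs h2
  refine lnode_of_tok (hcl t.1).1 (hcl t.1).tok_succ (n := t.2.val + a) ?_ h3
  have h4 := hs (a - 1)
  rw [sub_add_cancel] at h4
  rw [add_sub_assoc]
  refine List.prefix_of_prefix_length_le h4 h3 ?_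
  rw [List.length_tail, length_seg]
  omega

theorem seg_eq_word (t : Pos lst) (i j : ℤ) :
    seg (fun n => (tok (lst t.1) (t.2.val + n)).headD 0) i j =
      word (lst t.1) (t.sh i).2.val (j - i).toNat := by
  unfold seg word
  refine List.map_congr_left fun l _ => ?_
  have hpos := t.2.pos
  have h1 : tok (lst t.1) (t.2.val + (i + l)) =
      tok (lst t.1) ((((t.sh i).2.val + l) % (lst t.1).length : ℕ) : ℤ) := by
    refine tok_congr ?_
    rw [Int.natCast_mod, Int.emod_emod_of_dvd _ dvd_rfl, Nat.cast_add, Pos.sh_val,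
      Int.emod_add_emod, add_assoc]
  show (tok (lst t.1) (t.2.val + (i + l))).headD 0 = _
  rw [h1, tok_nat (Nat.mod_lt _ hpos), List.getD_eq_getElem _ _ (Nat.mod_lt _ hpos)]

end Family

theorem sum_coe_getElem (C : List (List Str)) :
    ∑ i : Fin C.length, (C[i.val] : Multiset Str) = (C.flatten : Multiset Str) := by
  rw [Fin.sum_univ_fun_getElem C fun L : List Str => (L : Multiset Str)]
  induction C with
  | nil => rfl
  | cons L C ih => rw [List.map_cons, List.sum_cons, ih, List.flatten_cons, Multiset.coe_add]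

theorem sum_ite_getElem (K : List (List Str)) (P : List Str → Bool) :
    ∑ i : Fin K.length, (if P K[i.val] then K[i.val].length else 0) =
      (K.filter P).flatten.length := by
  rw [Fin.sum_univ_fun_getElem K fun L : List Str => if P L then L.length else 0]
  induction K with
  | nil => rfl
  | cons L K ih =>
    rw [List.map_cons, List.sum_cons, ih, List.filter_cons]
    split_ifs <;> simp

open Classical in
theorem exists_move_of (hkey : KeyPerm) {C K : List (List Str)} (hcl : ∀ L ∈ C ++ K, Closed L)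
    (hne : ∀ z ∈ (C ++ K).flatten, z ≠ [])
    (hrule : ∀ u v, u ≠ [] → rule (C ++ K).flatten u v ≤ cnt (C ++ K).flatten u)
    {NA : Str → Prop} (h0 : NA []) (hC : ∀ L ∈ C, ∀ w, LNode L w → NA w)
    {s : Str} (hs : s ∈ K.flatten) (hsC : ∀ z ∈ C.flatten, ¬ s <+: z) :
    ∃ gc ∈ cands K, gc.1.drop gc.2 <+: gc.1 ∧ (∃ w, NA w ∧ LNode (loop gc) w) ∧
      gc.2 ≤ (K.filter fun L => decide (∃ w, LNode L w ∧ LNode (loop gc) w)).flatten.length := by
  let lst : Fin C.length ⊕ Fin K.length → List Str :=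
    Sum.elim (fun i => C[i.val]) fun i => K[i.val]
  have hmem : ∀ γ, lst γ ∈ C ++ K := by
    rintro (i | i)
    · exact List.mem_append_left _ (List.getElem_mem _)
    · exact List.mem_append_right _ (List.getElem_mem _)
  have hcl' : ∀ γ, Closed (lst γ) := fun γ => hcl _ (hmem γ)
  have hne' : ∀ γ, ∀ z ∈ lst γ, z ≠ [] := fun γ z hz =>
    hne z (List.mem_flatten.2 ⟨_, hmem γ, hz⟩)
  have hZ : ∑ γ, (lst γ : Multiset Str) = ((C ++ K).flatten : Multiset Str) := by
    rw [Fintype.sum_sum_type, List.flatten_append, ← Multiset.coe_add, ← sum_coe_getElem,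
      ← sum_coe_getElem]
    rfl
  let Γ := geo hkey hcl' hne' hZ hrule
  let KK : Finset (Fin C.length ⊕ Fin K.length) := Finset.univ.filter fun γ => γ.isRight
  have hKK : ∀ γ, γ ∈ KK → lst γ ∈ K := by
    rintro (i | i) h
    · simp [KK] at h
    · exact List.getElem_mem _
  have hCC : ∀ γ, γ ∉ KK → lst γ ∈ C := by
    rintro (i | i) h
    · exact List.getElem_mem _
    · simp [KK] at h
  obtain ⟨L0, hL0, hsL⟩ := List.mem_flatten.1 hs
  obtain ⟨i0, hi0, rfl⟩ := List.mem_iff_getElem.1 hL0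
  obtain ⟨k0, hk0, hk0'⟩ := List.mem_iff_getElem.1 hsL
  let t0 : Pos lst := ⟨Sum.inr ⟨i0, hi0⟩, ⟨k0, hk0⟩⟩
  have ht0 : tok (lst t0.1) (t0.2.val + 0) = s := by rw [← Pos.z_eq]; exact hk0'
  have hchain : ∀ t : Pos lst, ∀ n : ℤ,
      (tok (lst t.1) (t.2.val + n)).tail <+: tok (lst t.1) (t.2.val + (n + 1)) :=
    fun t n => by rw [← add_assoc]; exact (hcl' t.1).tok_succ _
  obtain ⟨t1, i, j, c, D, hm⟩ := Geo.core (Γ := Γ) (K := KK) (NA := NA) h0
    (fun t a b h1 h2 => hC _ (hCC _ h1) _ (lnode_seg hcl' t h2.1 h2.2)) (t0 := t0)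
    (by simp [KK, t0, Γ, geo]) (by
      intro t h1 h2
      by_contra h3
      have h4 : Γ.g t0 0 ≤ Γ.g t 0 := not_lt.1 h3
      refine hsC _ (List.mem_flatten.2 ⟨_, hCC _ h1, tok_mem (hcl' t.1).1 (t.2.val + 0)⟩) ?_
      have h5 := seg_prefix_of_chain (f := fun n => tok (lst t.1) (t.2.val + n)) (hchain t)
        (a := 0) (b := Γ.g t0 0) h4
      have h6 := seg_prefix_of_chain (f := fun n => tok (lst t0.1) (t0.2.val + n)) (hchain t0)
        (a := 0) (b := Γ.g t0 0) le_rfl
      have h7 : seg (Γ.y t0) 0 (Γ.g t0 0) = s := by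
        rw [← ht0]
        refine h6.eq_of_length ?_
        rw [length_seg]
        show (0 + ((tok (lst t0.1) (t0.2.val + 0)).length : ℤ) - 0).toNat = _
        omega
      rw [← h7, ← seg_congr h2]
      exact h5)
  have hc1 := hm.pos
  have hle := hm.le
  have hdrop : (seg (Γ.y t1) i j).drop c = seg (Γ.y t1) i (j - c) := by
    rw [seg_drop, seg_shift hm.per]
  have hper : (seg (Γ.y t1) i j).drop c <+: seg (Γ.y t1) i j := by
    rw [hdrop]
    exact seg_prefix _ _ (by omega)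
  have hbud : ∀ P : List Str → Bool, (∀ γ ∈ D, P (lst γ) = true) →
      c ≤ (K.filter P).flatten.length := by
    intro P hP
    refine hm.cost.trans ?_
    rw [← sum_ite_getElem]
    calc ∑ γ ∈ D, Γ.q γ = ∑ γ ∈ D, (if γ ∈ KK ∧ P (lst γ) then (lst γ).length else 0) :=
          Finset.sum_congr rfl fun γ hγ => by rw [if_pos ⟨hm.sub hγ, hP γ hγ⟩]; rfl
      _ ≤ ∑ γ, (if γ ∈ KK ∧ P (lst γ) then (lst γ).length else 0) :=
          Finset.sum_le_sum_of_subset (Finset.subset_univ D)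
      _ = _ := by
          rw [Fintype.sum_sum_type]
          simp [KK, lst]
  refine ⟨(seg (Γ.y t1) i j, c), ?_, hper, ?_, hbud _ fun γ hγ => ?_⟩
  · have h1 := hbud (fun _ => true) fun _ _ => rfl
    rw [List.filter_true] at h1
    obtain ⟨t, h2, h3⟩ := hm.short
    have h4 : (tok (lst t.1) (t.2.val + 0)).length ≤ K.flatten.flatten.length :=
      (List.sublist_flatten_of_mem
        (List.mem_flatten.2 ⟨_, hKK _ h2, tok_mem (hcl' t.1).1 _⟩)).length_le
    have h5 : Γ.g t 0 = 0 + (tok (lst t.1) (t.2.val + 0)).length := rfl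
    simp only [cands, List.mem_flatMap, List.mem_map, List.mem_range]
    refine ⟨lst t1.1, hKK _ hm.mem, (t1.sh i).2.val, (t1.sh i).2.isLt, (j - i).toNat, by omega,
      c - 1, by omega, ?_⟩
    rw [← seg_eq_word, show c - 1 + 1 = c by omega]
    rfl
  · obtain ⟨e, e1, e2, e3⟩ := hm.att
    refine ⟨_, e3, lnode_loop_prefix hc1 hper ?_ (seg_prefix _ _ e2)⟩
    rw [hdrop]
    exact seg_prefix _ _ e1
  · obtain ⟨t, a, b, rfl, h2, h3, h4⟩ := hm.touch γ hγ
    rw [decide_eq_true_iff]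
    refine ⟨seg (Γ.y t) a b, lnode_seg hcl' t h2.1 h2.2, ?_⟩
    rw [seg_congr h3]
    rcases h4 with ⟨rfl, h5, h6⟩ | ⟨rfl, h5, h6⟩
    · refine lnode_loop_prefix hc1 hper ?_ (seg_prefix _ _ h6)
      rw [hdrop]
      exact seg_prefix _ _ h5
    · have h7 := lnode_loop_drop (l := (a - i).toNat) hc1 hper (by omega)
      rwa [seg_drop, show i + ((a - i).toNat : ℤ) = a by omega] at h7

theorem existsMove_of (hkey : KeyPerm) : ExistsMove :=
  fun hcl hne hrule _ h0 hC _ hs hsC => exists_move_of hkey hcl hne hrule h0 hC hs hsC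

end Vale.Agent.P333
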