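import Vale.Agent.P333.PT2

/-!
Polynomial time: phase 3 (moves) and the whole algorithm.
-/

namespace Vale.Agent.P333

open Vale.Agent.Lib.PolyTime

variable {α β γ : Type} [Enc α] [Enc β] [Enc γ]

/-- Truncation of the second component of a candidate (no change for true candidates). -/
def trunc (gc : Str × ℕ) : Str × ℕ := (gc.1, min gc.2 gc.1.length)

theorem pt_trunc {gc : α → Str × ℕ} (h : PT ∅ gc) : PT ∅ (fun a => trunc (gc a)) :=
  h.fst.pair (PT.min h.snd h.fst.length)

theorem pt_loop_trunc {gc : α → Str × ℕ} (h : PT ∅ gc) :
    PT ∅ (fun a => loop (trunc (gc a))) :=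
  PT.map (f := fun a l => (gc a).1.drop l)
    (PT.range (PT.min h.snd h.fst.length) ((PBd.length h.fst).mono fun _ => min_le_right _ _))
    (PT.drop (h.fst.comp PT.fst') PT.snd')

theorem pt_word {L : α → List Str} {k n : α → ℕ} (hL : PT ∅ L) (hk : PT ∅ k) (hn : PT ∅ n)
    (hb : PBd n) : PT ∅ (fun a => word (L a) (k a) (n a)) :=
  PT.map (f := fun a l => ((L a).getD ((k a + l) % (L a).length) []).headD 0) (PT.range hn hb)
    ((PT.getD (hL.comp PT.fst') (PT.mod ((hk.comp PT.fst').add PT.snd') (hL.comp PT.fst').length)
      (PT.const [])).headD (PT.const 0))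

theorem pt_cands : PT ∅ cands := by
  have hN : PT ∅ (fun K : List (List Str) => K.flatten.length + K.flatten.flatten.length + 1) :=
    (PT.id.flatten.length.add PT.id.flatten.flatten.length).add (PT.const 1)
  have hNb : PBd (fun K : List (List Str) => K.flatten.length + K.flatten.flatten.length + 1) :=
    ((PBd.length (A := ∅) PT.id.flatten).add (PBd.length (A := ∅) PT.id.flatten.flatten)).add
      (PBd.const 1)
  have key : PT ∅ (fun K : List (List Str) =>
      K.flatMap fun L => (List.range L.length).flatMap fun k =>
        (List.range (K.flatten.length + K.flatten.flatten.length + 1)).flatMap fun n =>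
          (List.range (min n (K.flatten.length + K.flatten.flatten.length + 1))).map fun c =>
            (word L k (min n (K.flatten.length + K.flatten.flatten.length + 1)), c + 1)) := by
    refine PT.flatMap (f := fun (K : List (List Str)) (L : List Str) =>
      (List.range L.length).flatMap fun k =>
        (List.range (K.flatten.length + K.flatten.flatten.length + 1)).flatMap fun n =>
          (List.range (min n (K.flatten.length + K.flatten.flatten.length + 1))).map fun c =>
            (word L k (min n (K.flatten.length + K.flatten.flatten.length + 1)), c + 1)) PT.id ?_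
    refine PT.flatMap (f := fun (q : List (List Str) × List Str) (k : ℕ) =>
        (List.range (q.1.flatten.length + q.1.flatten.flatten.length + 1)).flatMap fun n =>
          (List.range (min n (q.1.flatten.length + q.1.flatten.flatten.length + 1))).map fun c =>
            (word q.2 k (min n (q.1.flatten.length + q.1.flatten.flatten.length + 1)), c + 1))
      (pt_rangeLen PT.snd') ?_
    refine PT.flatMap (f := fun (q : (List (List Str) × List Str) × ℕ) (n : ℕ) =>
          (List.range (min n (q.1.1.flatten.length + q.1.1.flatten.flatten.length + 1))).map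
            fun c => (word q.1.2 q.2
              (min n (q.1.1.flatten.length + q.1.1.flatten.flatten.length + 1)), c + 1))
      (PT.range (hN.comp PT.fst'.fst) (hNb.comp (A := ∅) PT.fst'.fst)) ?_
    have hm : PT ∅ (fun q : ((List (List Str) × List Str) × ℕ) × ℕ =>
        min q.2 (q.1.1.1.flatten.length + q.1.1.1.flatten.flatten.length + 1)) :=
      PT.min PT.snd' (hN.comp PT.fst'.fst.fst)
    have hmb : PBd (fun q : ((List (List Str) × List Str) × ℕ) × ℕ =>
        min q.2 (q.1.1.1.flatten.length + q.1.1.1.flatten.flatten.length + 1)) :=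
      (hNb.comp (A := ∅) PT.fst'.fst.fst).mono fun _ => min_le_right _ _
    refine PT.map (f := fun (q : ((List (List Str) × List Str) × ℕ) × ℕ) (c : ℕ) =>
        (word q.1.1.2 q.1.2
          (min q.2 (q.1.1.1.flatten.length + q.1.1.1.flatten.flatten.length + 1)), c + 1))
      (PT.range hm hmb) ?_
    exact ((pt_word PT.fst'.fst.snd PT.fst'.snd hm hmb).comp PT.fst').pair
      (PT.snd'.add (PT.const 1))
  refine key.congr fun K => ?_
  unfold cands
  refine List.flatMap_congr fun L _ => List.flatMap_congr fun k _ =>
    List.flatMap_congr fun n hn => ?_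
  rw [min_eq_left (List.mem_range.1 hn).le]

theorem pt_mem_cands {K : List (List Str)} {gc : Str × ℕ} (h : gc ∈ cands K) :
    ∃ L ∈ K, ∃ k n, n ≤ K.flatten.length + K.flatten.flatten.length ∧ gc.1 = word L k n ∧
      gc.2 ≤ n := by
  simp only [cands, List.mem_flatMap, List.mem_map, List.mem_range] at h
  obtain ⟨L, hL, k, -, n, hn, c, hc, rfl⟩ := h
  exact ⟨L, hL, k, n, by omega, rfl, hc⟩

theorem pt_length_word (L : List Str) (k n : ℕ) : (word L k n).length = n := by simp [word]

theorem trunc_of_mem_cands {K : List (List Str)} {gc : Str × ℕ} (h : gc ∈ cands K) :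
    trunc gc = gc := by
  obtain ⟨L, -, k, n, -, h1, h2⟩ := pt_mem_cands h
  have : gc.1.length = n := by rw [h1, pt_length_word]
  unfold trunc
  rw [this, min_eq_left h2]

theorem pt_res_trunc {st : α → List Str × List (List Str)} {gc : α → Str × ℕ} (hst : PT ∅ st)
    (h : PT ∅ gc) : PT ∅ (fun a => res (st a) (trunc (gc a))) :=
  pt_absorb (PT.optGetD (pt_spl hst.fst (pt_loop_trunc h)) hst.fst) hst.snd

theorem pt_ok_trunc {st : α → List Str × List (List Str)} {gc : α → Str × ℕ} (hst : PT ∅ st)
    (h : PT ∅ gc) : PT ∅ (fun a => ok (st a) (trunc (gc a))) :=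
  ((pt_prefix (PT.drop (pt_trunc h).fst (pt_trunc h).snd) (pt_trunc h).fst).and
    (pt_spl hst.fst (pt_loop_trunc h)).isSome).and
    (PT.le ((pt_trunc h).snd.add (pt_res_trunc hst h).snd.flatten.length) hst.snd.flatten.length)

theorem find?_congr_mem {δ : Type} {p q : δ → Bool} {l : List δ} (h : ∀ x ∈ l, p x = q x) :
    l.find? p = l.find? q := by
  induction l with
  | nil => rfl
  | cons x l ih =>
    rw [List.find?_cons, List.find?_cons, h x List.mem_cons_self,
      ih fun y hy => h y (List.mem_cons_of_mem _ hy)]

theorem pt_step : PT ∅ step := by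
  have hfind : PT ∅ (fun st : List Str × List (List Str) =>
      (cands st.2).find? fun gc => ok st (trunc gc)) :=
    PT.find? (f := fun st gc => ok st (trunc gc)) (pt_cands.comp PT.snd')
      (pt_ok_trunc PT.fst' PT.snd')
  refine (PT.optCase (f := fun st => st) (g := fun st gc => res st (trunc gc)) hfind PT.id
    (pt_res_trunc PT.fst' PT.snd')).congr fun st => ?_
  rw [find?_congr_mem (q := ok st) fun gc hgc => by rw [trunc_of_mem_cands hgc]]
  unfold step
  rcases e : (cands st.2).find? (ok st) with _ | gc
  · rfl
  · simp only
    rw [trunc_of_mem_cands (List.mem_of_find?_eq_some e)]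

/-! ### Sizes -/

/-- Bound for the size of the loops. -/
def loopBd (e : ℕ) : ℕ := 2 * e * (2 * (2 * e * (2 * e + 1)) + 1)

theorem loopBd_mono {e e' : ℕ} (h : e ≤ e') : loopBd e ≤ loopBd e' := by
  unfold loopBd
  gcongr

theorem esize_headD_le (z : Str) : esize (z.headD 0) ≤ esize z := by
  cases z with
  | nil => simp [esize_nat, esize_list_nil]
  | cons a z => rw [esize_list_cons]; simp only [List.headD_cons]; omega

theorem esize_getD_le (L : List Str) (i : ℕ) : esize (L.getD i []) ≤ esize L := by
  rcases lt_or_ge i L.length with h | h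
  · rw [List.getD_eq_getElem _ _ h]
    exact esize_le_of_mem (List.getElem_mem h)
  · rw [List.getD_eq_default _ _ h, esize_list_nil]
    exact Nat.zero_le _

theorem esize_loop_le {K : List (List Str)} {gc : Str × ℕ} (h : gc ∈ cands K) :
    esize (loop gc) ≤ loopBd (esize K) := by
  obtain ⟨L, hL, k, n, hn, h1, h2⟩ := pt_mem_cands h
  have e1 : K.flatten.length ≤ esize K := (length_le_esize _).trans (esize_flatten_le K)
  have e2 : K.flatten.flatten.length ≤ esize K :=
    (length_le_esize _).trans ((esize_flatten_le _).trans (esize_flatten_le K))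
  have hn' : n ≤ 2 * esize K := by omega
  have hg : esize gc.1 ≤ 2 * esize K * (2 * esize K + 1) := by
    rw [h1]
    refine (esize_list_le (B := esize K) fun x hx => ?_).trans ?_
    · simp only [word, List.mem_map] at hx
      obtain ⟨l, -, rfl⟩ := hx
      exact (esize_headD_le _).trans ((esize_getD_le _ _).trans (esize_le_of_mem hL))
    · rw [pt_length_word]
      exact Nat.mul_le_mul_right _ hn'
  refine (esize_list_le (B := 2 * esize K * (2 * esize K + 1)) fun x hx => ?_).trans ?_
  · simp only [loop, List.mem_map] at hx
    obtain ⟨l, -, rfl⟩ := hx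
    exact (esize_drop_le _ _).trans hg
  · unfold loopBd
    refine Nat.mul_le_mul_right _ ?_
    simp only [loop, List.length_map, List.length_range]
    omega

theorem esize_step_le (st : List Str × List (List Str)) :
    esize (step st).1 + esize (step st).2 ≤ esize st.1 + esize st.2 + loopBd (esize st.2) ∧
    esize (step st).2 ≤ esize st.2 := by
  unfold step
  rcases e : (cands st.2).find? (ok st) with _ | gc
  · simp
  · have h1 := esize_loop_le (List.mem_of_find?_eq_some e)
    have h2 := esize_spl_getD st.1 (loop gc)
    have h3 := esize_absorb ((spl st.1 (loop gc)).getD st.1) st.2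
    simp only [res]
    omega

theorem esize_step_iterate (j : ℕ) (st : List Str × List (List Str)) :
    esize (step^[j] st).1 + esize (step^[j] st).2 ≤
      esize st.1 + esize st.2 + j * loopBd (esize st.2) ∧
    esize (step^[j] st).2 ≤ esize st.2 := by
  induction j with
  | zero => simp
  | succ j ih =>
    rw [Function.iterate_succ_apply']
    have h1 := esize_step_le (step^[j] st)
    have h2 := loopBd_mono ih.2
    rw [Nat.succ_mul]
    omega

/-- The algorithm runs in polynomial time, given the bound on the number of tokens. -/
theorem approx_PT_of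
    (h1 : ∀ (S : List Str) (i : ℕ), (((pairs S).take i).foldl addTok []).length ≤ S.flatten.length) :
    PT ∅ approx := by
  have hT := pt_tokens h1
  have hL : PT ∅ (fun S => layers (tokens S)) := pt_layers hT
  have hb : PBd (fun S => loopBd (esize (layers (tokens S)))) :=
    ((PBd.const 2).mul hL.pbd).mul (((PBd.const 2).mul (((PBd.const 2).mul hL.pbd).mul
      (((PBd.const 2).mul hL.pbd).add (PBd.const 1)))).add (PBd.const 1))
  refine PT.map (f := fun _ (z : Str) => z.headD 0) (PT.fst (PT.iterate
    (init := fun S => (([] : List Str), layers (tokens S))) hT.length (PBd.length hT)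
    ((PT.const []).pair hL) pt_step
    (b := fun S => 2 * (esize (layers (tokens S)) +
      (tokens S).length * loopBd (esize (layers (tokens S)))) + 1)
    (((PBd.const 2).mul (hL.pbd.add ((PBd.length hT).mul hb))).add (PBd.const 1))
    fun S j hj => ?_)) (PT.snd'.headD (PT.const 0))
  have h := esize_step_iterate j (([] : List Str), layers (tokens S))
  have h2 := esize_pair (step^[j] (([] : List Str), layers (tokens S))).1
    (step^[j] (([] : List Str), layers (tokens S))).2
  have h3 := Nat.mul_le_mul_right (loopBd (esize (layers (tokens S)))) hj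
  simp only [Prod.mk.eta, esize_list_nil] at h h2
  omega

end Vale.Agent.P333
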