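import Vale.Agent.P333.Bridge
import Vale.Agent.P333.Key
import Vale.Agent.P333.Lower
import Vale.Agent.P333.Move
import Vale.Agent.P333.PT3

/-!
Assembly: the algorithm `approx` is a polynomial time `2`-approximation.
-/

namespace Vale.Agent.P333

theorem keyPerm : KeyPerm :=
  fun z σ _ hs _ hZ hrule x p hp hx i j hij h => key_perm z σ hs hZ hrule x p hp hx i j hij h

theorem hasApproximation_two : HasApproximation 2 :=
  hasApproximation_two_of_PT
    (approx_PT_of fun S i => foldl_addTok_le (isSuperstring_flatten S) i)
    (fun S => approx_super_of (existsMove_of keyPerm) (tokens_ok S))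
    fun S _ h => (approx_length_of (tokens_ok S)).trans (Nat.mul_le_mul_left 2 (tokens_le h))

end Vale.Agent.P333
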