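import Vale.Agent.P333.Splice

/-!
The tokens are arranged in closed walks.
-/

namespace Vale.Agent.P333

theorem cnt_cons (z : Str) (Z : List Str) (u : Str) :
    cnt (z :: Z) u = cnt Z u + if u <+: z then 1 else 0 := by
  simp [cnt, List.countP_cons]

theorem cnt_perm {Z Z' : List Str} (h : Z.Perm Z') (u : Str) : cnt Z u = cnt Z' u :=
  h.countP_eq _

theorem cnt_pos_iff {Z : List Str} {u : Str} : 0 < cnt Z u ↔ ∃ z ∈ Z, u <+: z := by
  simp [cnt, List.countP_pos_iff]

theorem cntT_eq (Z : List Str) (u : Str) : cntT Z u = cnt (Z.map List.tail) u := by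
  simp [cnt, cntT, List.countP_map, Function.comp_def]

/-- Removing a longest end together with a head that extends it keeps the balance. -/
theorem bal_remove {E H H' : List Str} {e h : Str} (hb : ∀ u, cnt (e :: E) u ≤ cnt H u)
    (hH : H.Perm (h :: H')) (heh : e <+: h) (hl : ∀ x ∈ E, x.length ≤ e.length) (u : Str) :
    cnt E u ≤ cnt H' u := by
  have h1 := hb u
  rw [cnt_perm hH, cnt_cons, cnt_cons] at h1
  by_cases hue : u <+: e
  · rw [if_pos hue, if_pos (hue.trans heh)] at h1
    omega
  · by_cases huh : u <+: h
    · have : cnt E u = 0 := by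
        by_contra hne
        obtain ⟨x, hx, hux⟩ := cnt_pos_iff.1 (Nat.pos_of_ne_zero hne)
        exact hue (List.prefix_of_prefix_length_le huh heh (hux.length_le.trans (hl x hx)))
      omega
    · rw [if_neg hue, if_neg huh] at h1
      omega

theorem endOf_eq_lo (a : Str) {B : List Str} (h : B ≠ []) : endOf B = lo a B := by
  induction B generalizing a with
  | nil => exact absurd rfl h
  | cons z L ih =>
    cases L with
    | nil => rfl
    | cons y L =>
      have := ih z.tail (by simp)
      simpa [endOf, lo, List.getLast?_cons_cons] using this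

theorem endOf_append (B : List Str) {B' : List Str} (h : B' ≠ []) :
    endOf (B ++ B') = endOf B' := by
  rw [endOf_eq_lo [] (by simp [h]), lo_append, ← endOf_eq_lo _ h]

/-- An open path. -/
def IsPath (B : List Str) : Prop := B ≠ [] ∧ Walk (B.headD []) B (endOf B)

theorem IsPath.closed {B : List Str} (h : IsPath B) (hf : fits B B = true) : Closed B :=
  ⟨h.1, _, h.2.mono_right (of_decide_eq_true hf)⟩

theorem IsPath.append {B B' : List Str} (h : IsPath B) (h' : IsPath B') (hf : fits B B' = true) :
    IsPath (B ++ B') := by
  refine ⟨by simp [h.1], ?_⟩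
  rw [endOf_append _ h'.1, headD_append, headD_of_ne_nil _ [] h.1]
  exact (h.2.mono_right (of_decide_eq_true hf)).append h'.2

theorem glue_eq (B : List Str) {P : List (List Str)} (h : ∃ B' ∈ P, fits B B' = true) :
    ∃ P1 B' P2, P = P1 ++ B' :: P2 ∧ fits B B' = true ∧ glue B P = P1 ++ (B ++ B') :: P2 := by
  induction P with
  | nil => simp at h
  | cons C P ih =>
    by_cases hC : fits B C = true
    · exact ⟨[], C, P, rfl, hC, by simp [glue, hC]⟩
    · obtain ⟨B', hB', hf⟩ := h
      rcases List.mem_cons.1 hB' with rfl | hB'
      · exact absurd hf hC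
      obtain ⟨P1, B'', P2, h1, h2, h3⟩ := ih ⟨B', hB', hf⟩
      refine ⟨C :: P1, B'', P2, by simp [h1], h2, ?_⟩
      have : glue B (C :: P) = C :: glue B P := by simp [glue, hC]
      rw [this, h3]
      rfl

/-- Invariant of phase 2. -/
structure LayInv (Z : List Str) (st : List (List Str) × List (List Str)) : Prop where
  perm : (st.1.flatten ++ st.2.flatten).Perm Z
  path : ∀ B ∈ st.1, IsPath B
  closed : ∀ L ∈ st.2, Closed L
  sorted : (st.1.map endOf).Pairwise fun a b => b.length ≤ a.length
  bal : ∀ u, cnt (st.1.map endOf) u ≤ cnt (st.1.map fun B => B.headD []) u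

theorem LayInv.step {Z : List Str} {st : List (List Str) × List (List Str)} (h : LayInv Z st) :
    LayInv Z (layStep st) ∧ (layStep st).1.length = st.1.length - 1 := by
  obtain ⟨Q, Cl⟩ := st
  cases Q with
  | nil => exact ⟨h, rfl⟩
  | cons B P =>
    obtain ⟨h1, h2, h3, h4, h5⟩ := h
    simp only [List.map_cons, List.pairwise_cons] at h4 h5
    have hB : IsPath B := h2 B List.mem_cons_self
    by_cases hf : fits B B = true
    · have e : layStep (B :: P, Cl) = (P, B :: Cl) := by simp [layStep, hf]
      rw [e]
      refine ⟨⟨?_, fun C hC => h2 C (List.mem_cons_of_mem _ hC), fun L hL => ?_, h4.2,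
        bal_remove h5 (List.Perm.refl _) (of_decide_eq_true hf) h4.1⟩, by simp⟩
      · refine List.Perm.trans ?_ h1
        simp only [List.flatten_cons]
        rw [← List.append_assoc]
        exact List.perm_append_comm.append_right _
      · rcases List.mem_cons.1 hL with rfl | hL
        · exact hB.closed hf
        · exact h3 L hL
    · have e : layStep (B :: P, Cl) = (glue B P, Cl) := by simp [layStep, hf]
      rw [e]
      have hex : ∃ B' ∈ P, fits B B' = true := by
        have h6 := h5 (endOf B)
        rw [cnt_cons, if_pos (List.prefix_refl _), cnt_cons,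
          if_neg (fun hh => hf (decide_eq_true hh))] at h6
        obtain ⟨z, hz, hp⟩ := cnt_pos_iff.1 (show 0 < cnt (P.map fun B => B.headD []) (endOf B) by
          omega)
        obtain ⟨B', hB', rfl⟩ := List.mem_map.1 hz
        exact ⟨B', hB', decide_eq_true hp⟩
      obtain ⟨P1, B', P2, rfl, hf', hg⟩ := glue_eq B hex
      rw [hg]
      have hB' : IsPath B' := h2 B' (by simp)
      have hend : (P1 ++ (B ++ B') :: P2).map endOf = (P1 ++ B' :: P2).map endOf := by
        simp [endOf_append _ hB'.1]
      refine ⟨⟨?_, fun C hC => ?_, h3, by rw [hend]; exact h4.2, ?_⟩, by simp⟩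
      · refine List.Perm.trans (List.Perm.append_right _ ?_) h1
        simp only [List.flatten_cons, List.flatten_append, List.append_assoc]
        rw [← List.append_assoc, ← List.append_assoc B]
        exact List.perm_append_comm.append_right _
      · rcases List.mem_append.1 hC with hC | hC
        · exact h2 C (by simp [hC])
        rcases List.mem_cons.1 hC with rfl | hC
        · exact hB.append hB' hf'
        · exact h2 C (by simp [hC])
      · rw [hend]
        refine bal_remove (h := B'.headD []) h5 ?_ (of_decide_eq_true hf') h4.1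
        simp only [List.map_append, List.map_cons]
        rw [headD_append, headD_of_ne_nil (B'.headD []) [] hB.1]
        refine ((List.perm_middle.cons _).trans (List.Perm.swap _ _ _)).trans ?_
        exact List.perm_middle.symm.cons _

theorem LayInv.iterate {Z : List Str} {st : List (List Str) × List (List Str)} (h : LayInv Z st)
    (n : ℕ) : LayInv Z (layStep^[n] st) ∧ (layStep^[n] st).1.length = st.1.length - n := by
  induction n with
  | zero => exact ⟨h, rfl⟩
  | succ n ih =>
    rw [Function.iterate_succ_apply']
    refine ⟨ih.1.step.1, ?_⟩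
    rw [ih.1.step.2, ih.2]
    omega

theorem layers_ok {Z : List Str} (hs : Z.Pairwise fun a b => b.length ≤ a.length)
    (hb : ∀ u, cntT Z u ≤ cnt Z u) :
    (layers Z).flatten.Perm Z ∧ ∀ L ∈ layers Z, Closed L := by
  have e1 : (Z.map fun z => [z]).map endOf = Z.map List.tail := by
    simp [endOf, Function.comp_def]
  have e2 : ((Z.map fun z => [z]).map fun B => B.headD []) = Z := by
    simp [Function.comp_def]
  have h0 : LayInv Z (Z.map fun z => [z], []) := by
    refine ⟨?_, fun B hB => ?_, by simp, ?_, fun u => ?_⟩
    · have : ∀ Y : List Str, (Y.map fun z => [z]).flatten = Y := fun Y => by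
        induction Y with
        | nil => rfl
        | cons y Y ih => simp [ih]
      simp [this]
    · obtain ⟨z, -, rfl⟩ := List.mem_map.1 hB
      exact ⟨by simp, List.prefix_refl _, List.prefix_refl _⟩
    · rw [e1, List.pairwise_map]
      exact hs.imp fun h => by simp only [List.length_tail]; omega
    · rw [e1, e2, ← cntT_eq]
      exact hb u
  obtain ⟨h1, h2⟩ := h0.iterate Z.length
  have h3 : (layStep^[Z.length] (Z.map fun z => [z], [])).1 = [] := by
    apply List.eq_nil_of_length_eq_zero
    rw [h2]
    simp
  refine ⟨?_, h1.closed⟩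
  have := h1.perm
  rw [h3] at this
  exact this

end Vale.Agent.P333
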