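import Vale.Agent.P333.Alg
import Vale.Agent.Lib.PCP.PT.Fin

/-!
Polynomial time: phase 1 of the algorithm (tokens).
-/

namespace Vale.Agent.P333

open Vale.Agent.Lib.PolyTime

variable {α β γ : Type} [Enc α] [Enc β] [Enc γ]

/-! ### General tools -/

theorem pt_prefix {u v : α → Str} (hu : PT ∅ u) (hv : PT ∅ v) :
    PT ∅ (fun a => decide (u a <+: v a)) :=
  (PT.eq hu (PT.take hv hu.length)).congr fun a => by
    rw [Bool.eq_iff_iff, decide_eq_true_eq, decide_eq_true_eq, List.prefix_iff_eq_take]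

theorem pt_countP {l : α → List γ} {f : α → γ → Bool} (hl : PT ∅ l)
    (hf : PT ∅ (fun p : α × γ => f p.1 p.2)) : PT ∅ (fun a => (l a).countP (f a)) :=
  (PT.filter hl hf).length.congr fun _ => List.countP_eq_length_filter.symm

theorem pt_rangeLen {l : α → List γ} (hl : PT ∅ l) : PT ∅ (fun a => List.range (l a).length) :=
  PT.range hl.length (PBd.length hl)

theorem pt_ne {f g : α → ℕ} (hf : PT ∅ f) (hg : PT ∅ g) : PT ∅ (fun a => decide (f a ≠ g a)) :=
  PT.decide_not (p := fun a => f a = g a) (PT.eqNat hf hg)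

/-! ### Counting -/

theorem pt_cnt {Z : α → List Str} {v : α → Str} (hZ : PT ∅ Z) (hv : PT ∅ v) :
    PT ∅ (fun a => cnt (Z a) (v a)) :=
  pt_countP (f := fun a z => decide (v a <+: z)) hZ (pt_prefix (hv.comp PT.fst') PT.snd')

theorem pt_cntT {Z : α → List Str} {v : α → Str} (hZ : PT ∅ Z) (hv : PT ∅ v) :
    PT ∅ (fun a => cntT (Z a) (v a)) :=
  pt_countP (f := fun a (z : Str) => decide (v a <+: z.tail)) hZ
    (pt_prefix (hv.comp PT.fst') PT.snd'.tail)

theorem pt_ext {v : α → Str} {p k l : α → ℕ} (hv : PT ∅ v) (hp : PT ∅ p) (hk : PT ∅ k)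
    (hl : PT ∅ l) : PT ∅ (fun a => ext (v a) (p a) (k a) (l a)) :=
  PT.getD hv (PT.mod (hl.add (hk.mul (hp.sub (PT.const 1)))) hp) (PT.const 0)

theorem pt_hidB {v z : α → Str} {p j k : α → ℕ} (hv : PT ∅ v) (hp : PT ∅ p) (hj : PT ∅ j)
    (hz : PT ∅ z) (hk : PT ∅ k) : PT ∅ (fun a => hidB (v a) (p a) (j a) (z a) (k a)) := by
  have he : PT ∅ (fun q : α × ℕ => ext (v q.1) (p q.1) (k q.1) q.2) :=
    pt_ext (hv.comp PT.fst') (hp.comp PT.fst') (hk.comp PT.fst') PT.snd'
  have hg : PT ∅ (fun q : α × ℕ => (z q.1).getD q.2 0) :=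
    PT.getD (hz.comp PT.fst') PT.snd' (PT.const 0)
  refine ((((PT.le (PT.const 1) hk).and (PT.le (hk.add hj) hz.length)).and
    (pt_ne (PT.getD hz (PT.const 0) (PT.const 0)) (pt_ext hv hp hk (PT.const 0)))).and
    (PT.all (f := fun a l => decide (l = 0) || decide (k a + j a ≤ l) ||
      decide ((z a).getD l 0 = ext (v a) (p a) (k a) l)) (pt_rangeLen hz) ?_)).and
    (PT.any (f := fun a l => decide (1 ≤ l) &&
      decide ((z a).getD l 0 ≠ ext (v a) (p a) (k a) l)) (pt_rangeLen hz) ?_)
  · exact ((PT.eqNat PT.snd' (PT.const 0)).or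
      (PT.le ((hk.add hj).comp PT.fst') PT.snd')).or (PT.eqNat hg he)
  · exact (PT.le (PT.const 1) PT.snd').and (pt_ne hg he)

theorem pt_hid {Z : α → List Str} {v : α → Str} {p j : α → ℕ} (hZ : PT ∅ Z) (hv : PT ∅ v)
    (hp : PT ∅ p) (hj : PT ∅ j) : PT ∅ (fun a => hid (Z a) (v a) (p a) (j a)) := by
  refine PT.sum (PT.map (f := fun a z => (List.range z.length).countP (hidB (v a) (p a) (j a) z))
    hZ ?_)
  refine pt_countP (f := fun (q : α × Str) k => hidB (v q.1) (p q.1) (j q.1) q.2 k)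
    (pt_rangeLen PT.snd') ?_
  exact pt_hidB (hv.comp PT.fst'.fst) (hp.comp PT.fst'.fst) (hj.comp PT.fst'.fst) PT.fst'.snd
    PT.snd'

theorem pt_rule {Z : α → List Str} {u v : α → Str} (hZ : PT ∅ Z) (hu : PT ∅ u) (hv : PT ∅ v) :
    PT ∅ (fun a => rule (Z a) (u a) (v a)) := by
  have hp : PT ∅ (fun a => (v a).length - (u a).length) := hv.length.sub hu.length
  have h1 := pt_hid hZ hv hp hv.length
  have h2 := pt_hid hZ hv hp hu.length
  have h3 := pt_cnt hZ hv
  exact PT.ite (PT.decide_and (PT.lt hu.length hv.length) (PT.decide_and (pt_prefix hu hv)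
    (PT.decide_and (pt_prefix (PT.drop hv hp) hv) (PT.lt h1 h3))))
    ((h2.add (h3.sub h1)).add (PT.const 1)) (PT.const 0)

theorem pt_req {Z : α → List Str} {u v : α → Str} (hZ : PT ∅ Z) (hu : PT ∅ u) (hv : PT ∅ v) :
    PT ∅ (fun a => req (Z a) (u a) (v a)) :=
  PT.max (PT.max (PT.const 1) (pt_cntT hZ hu)) (pt_rule hZ hu hv)

theorem hid_le (Z : List Str) (v : Str) (p j : ℕ) : hid Z v p j ≤ Z.flatten.length := by
  induction Z with
  | nil => simp [hid]
  | cons z Z ih =>
    have h : (List.range z.length).countP (hidB v p j z) ≤ z.length :=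
      List.countP_le_length.trans (by simp)
    simp only [hid, List.map_cons, List.sum_cons, List.flatten_cons, List.length_append] at ih ⊢
    omega

theorem req_le (Z : List Str) (u v : Str) : req Z u v ≤ Z.flatten.length + Z.length + 1 := by
  have h1 : cntT Z u ≤ Z.length := List.countP_le_length
  have h2 : cnt Z v ≤ Z.length := List.countP_le_length
  have h3 := hid_le Z v (v.length - u.length) u.length
  have h4 : rule Z u v ≤ Z.flatten.length + Z.length + 1 := by
    unfold rule
    split_ifs <;> omega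
  unfold req
  omega

theorem pt_addTok {Z : α → List Str} {uv : α → Str × Str} (hZ : PT ∅ Z) (huv : PT ∅ uv) :
    PT ∅ (fun a => addTok (Z a) (uv a)) := by
  refine hZ.append (PT.replicate ((pt_req hZ huv.fst huv.snd).sub (pt_cnt hZ huv.fst)) ?_ huv.fst)
  refine (((PBd.length hZ.flatten).add (PBd.length hZ)).add (PBd.const 1)).mono fun a => ?_
  have := req_le (Z a) (uv a).1 (uv a).2
  omega

theorem pt_subs : PT ∅ subs := by
  refine PT.flatMap (f := fun (S : List Str) n => S.flatMap fun s =>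
      ((List.range s.length).map fun i => (s.drop i).take (n + 1)).filter fun w =>
        decide (w.length = n + 1)) (pt_rangeLen PT.id.flatten).reverse ?_
  refine PT.flatMap (f := fun (q : List Str × ℕ) (s : Str) =>
      ((List.range s.length).map fun i => (s.drop i).take (q.2 + 1)).filter fun w =>
        decide (w.length = q.2 + 1)) PT.fst' ?_
  refine PT.filter (f := fun (q : (List Str × ℕ) × Str) (w : Str) =>
    decide (w.length = q.1.2 + 1)) ?_ (PT.eqNat PT.snd'.length (PT.fst'.fst.snd.add (PT.const 1)))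
  refine PT.map (f := fun (q : (List Str × ℕ) × Str) (i : ℕ) => (q.2.drop i).take (q.1.2 + 1))
    (pt_rangeLen PT.snd') ?_
  exact PT.take (PT.drop PT.fst'.snd PT.snd') (PT.fst'.fst.snd.add (PT.const 1))

theorem pt_pairs : PT ∅ pairs := by
  refine PT.flatMap (f := fun (S : List Str) (u : Str) => (subs S).map fun v => (u, v)) pt_subs ?_
  exact PT.map (f := fun (q : List Str × Str) (v : Str) => (q.2, v)) (pt_subs.comp PT.fst')
    (PT.fst'.snd.pair PT.snd')

theorem mem_foldl_addTok (P : List (Str × Str)) (Z : List Str) {z : Str}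
    (hz : z ∈ P.foldl addTok Z) : z ∈ Z ∨ ∃ uv ∈ P, z = uv.1 := by
  induction P generalizing Z with
  | nil => exact Or.inl hz
  | cons uv P ih =>
    rcases ih _ hz with h | ⟨w, hw, h⟩
    · rcases List.mem_append.1 h with h | h
      · exact Or.inl h
      · exact Or.inr ⟨uv, List.mem_cons_self, List.eq_of_mem_replicate h⟩
    · exact Or.inr ⟨w, List.mem_cons_of_mem _ hw, h⟩

theorem pt_tokens
    (h1 : ∀ (S : List Str) (i : ℕ), (((pairs S).take i).foldl addTok []).length ≤ S.flatten.length) :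
    PT ∅ tokens := by
  refine PT.foldl (f := fun (_ : List Str) Z uv => addTok Z uv) (init := fun _ => [])
    pt_pairs (PT.const []) (pt_addTok PT.snd'.fst PT.snd'.snd)
    (b := fun S => S.flatten.length * (2 * esize (pairs S) + 1))
    ((PBd.length (A := ∅) PT.id.flatten).mul (((PBd.const 2).mul pt_pairs.pbd).add (PBd.const 1)))
    fun S i => ?_
  refine (esize_list_le (B := esize (pairs S)) fun z hz => ?_).trans
    (Nat.mul_le_mul_right _ (h1 S i))
  rcases mem_foldl_addTok _ _ hz with h | ⟨uv, huv, rfl⟩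
  · simp at h
  · exact (esize_fst_le uv).trans (esize_le_of_mem (List.mem_of_mem_take huv))

end Vale.Agent.P333
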