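import Vale.Agent.P333.PT1

/-!
Polynomial time: phase 2 (layers) and the splicing operations of phase 3.
-/

namespace Vale.Agent.P333

open Vale.Agent.Lib.PolyTime

variable {α β γ : Type} [Enc α] [Enc β] [Enc γ]

/-! ### Layers -/

theorem pt_walkB {L : α → List Str} (hL : PT ∅ L) : PT ∅ (fun a => walkB (L a)) :=
  PT.all (f := fun _ (p : Str × Str) => decide (p.1 <+: p.2))
    (PT.zip (PT.cons (PT.const []) (PT.map (f := fun _ (z : Str) => z.tail) hL PT.snd'.tail))
      (hL.append (PT.const [[]])))
    (pt_prefix PT.snd'.fst PT.snd'.snd)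

theorem pt_endOf {B : α → List Str} (hB : PT ∅ B) : PT ∅ (fun a => endOf (B a)) :=
  (PT.optGetD (PT.getLast? hB) (PT.const [])).tail

theorem pt_fits {B B' : α → List Str} (hB : PT ∅ B) (hB' : PT ∅ B') :
    PT ∅ (fun a => fits (B a) (B' a)) :=
  pt_prefix (pt_endOf hB) (hB'.headD (PT.const []))

theorem pt_glue {B : α → List Str} {P : α → List (List Str)} (hB : PT ∅ B) (hP : PT ∅ P) :
    PT ∅ (fun a => glue (B a) (P a)) := by
  have hf : PT ∅ (fun q : α × List Str => !fits (B q.1) q.2) :=
    (pt_fits (hB.comp PT.fst') PT.snd').not
  have hd := PT.dropWhile (f := fun a B' => !fits (B a) B') hP hf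
  exact ((PT.takeWhile (f := fun a B' => !fits (B a) B') hP hf).append
    (PT.map (f := fun a B' => B a ++ B') (PT.take hd (PT.const 1))
      ((hB.comp PT.fst').append PT.snd'))).append hd.tail

theorem pt_layStep : PT ∅ layStep := by
  refine (PT.listCase (l := fun st : List (List Str) × List (List Str) => st.1)
    (f := fun st => st)
    (g := fun st B P => if fits B B then (P, B :: st.2) else (glue B P, st.2)) PT.fst' PT.id
    ?_).congr fun st => ?_
  · refine PT.ite (p := fun q : (List (List Str) × List (List Str)) × List Str × List (List Str) =>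
      fits q.2.1 q.2.1 = true) ((pt_fits PT.snd'.fst PT.snd'.fst).congr fun q => by simp)
      (PT.snd'.snd.pair (PT.cons PT.snd'.fst PT.fst'.snd))
      ((pt_glue PT.snd'.fst PT.snd'.snd).pair PT.fst'.snd)
  · rcases st with ⟨_ | ⟨B, P⟩, C⟩ <;> rfl

theorem esize_glue_le (B : List Str) (P : List (List Str)) :
    esize (glue B P) ≤ 2 * esize B + esize P := by
  have h := congrArg esize (List.takeWhile_append_dropWhile (p := fun B' => !fits B B') (l := P))
  rw [esize_append] at h
  unfold glue
  rw [esize_append, esize_append]
  rcases e : P.dropWhile (fun B' => !fits B B') with _ | ⟨B', Q⟩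
  · rw [e] at h
    simp only [List.take_nil, List.map_nil, List.tail_nil]
    rw [esize_list_nil] at h ⊢
    omega
  · rw [e, esize_list_cons] at h
    simp only [List.take_succ_cons, List.take_zero, List.map_cons, List.map_nil, List.tail_cons]
    rw [esize_list_cons, esize_append, esize_list_nil]
    omega

theorem esize_layStep_le (st : List (List Str) × List (List Str)) :
    esize (layStep st).1 + esize (layStep st).2 ≤ esize st.1 + esize st.2 := by
  rcases st with ⟨_ | ⟨B, P⟩, C⟩
  · exact le_rfl
  · have := esize_glue_le B P
    simp only [layStep]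
    split_ifs
    · simp only [esize_list_cons]
      omega
    · simp only [esize_list_cons]
      omega

theorem esize_layStep_iterate (j : ℕ) (st : List (List Str) × List (List Str)) :
    esize (layStep^[j] st).1 + esize (layStep^[j] st).2 ≤ esize st.1 + esize st.2 := by
  induction j with
  | zero => exact le_rfl
  | succ j ih =>
    rw [Function.iterate_succ_apply']
    exact (esize_layStep_le _).trans ih

theorem pt_layers {Z : α → List Str} (hZ : PT ∅ Z) : PT ∅ (fun a => layers (Z a)) := by
  have hm : PT ∅ (fun a => (Z a).map fun z => [z]) :=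
    PT.map (f := fun _ (z : Str) => [z]) hZ (PT.cons PT.snd' (PT.const []))
  refine PT.snd (PT.iterate (init := fun a => ((Z a).map fun z => [z], []))
    hZ.length (PBd.length hZ) (hm.pair (PT.const [])) pt_layStep
    (b := fun a => 2 * esize ((Z a).map fun z => [z]) + 1)
    (((PBd.const 2).mul hm.pbd).add (PBd.const 1)) fun a j _ => ?_)
  have h := esize_layStep_iterate j ((Z a).map fun z => [z], [])
  have h2 := esize_pair (layStep^[j] ((Z a).map fun z => [z], [])).1
    (layStep^[j] ((Z a).map fun z => [z], [])).2
  simp only [Prod.mk.eta, esize_list_nil] at h h2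
  omega

/-! ### Splicing -/

theorem pt_splices {A L : α → List Str} (hA : PT ∅ A) (hL : PT ∅ L) :
    PT ∅ (fun a => splices (A a) (L a)) := by
  refine PT.flatMap (f := fun a i => (List.range (L a).length).map fun k =>
    (A a).take i ++ ((L a).drop k ++ (L a).take k) ++ (A a).drop i)
    (PT.range (hA.length.add (PT.const 1)) ((PBd.length hA).add (PBd.const 1))) ?_
  refine PT.map (f := fun (q : α × ℕ) k =>
    (A q.1).take q.2 ++ ((L q.1).drop k ++ (L q.1).take k) ++ (A q.1).drop q.2)
    (pt_rangeLen (hL.comp PT.fst')) ?_
  have hA' : PT ∅ (fun q : (α × ℕ) × ℕ => A q.1.1) := hA.comp PT.fst'.fst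
  have hL' : PT ∅ (fun q : (α × ℕ) × ℕ => L q.1.1) := hL.comp PT.fst'.fst
  exact ((PT.take hA' PT.fst'.snd).append ((PT.drop hL' PT.snd').append
    (PT.take hL' PT.snd'))).append (PT.drop hA' PT.fst'.snd)

theorem pt_spl {A L : α → List Str} (hA : PT ∅ A) (hL : PT ∅ L) :
    PT ∅ (fun a => spl (A a) (L a)) :=
  PT.find? (f := fun _ W => walkB W) (pt_splices hA hL) (pt_walkB PT.snd')

theorem esize_spl {A L A' : List Str} (h : spl A L = some A') :
    esize A' = esize A + esize L := by
  have h1 := List.mem_of_find?_eq_some h
  simp only [splices, List.mem_flatMap, List.mem_map] at h1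
  obtain ⟨i, -, k, -, rfl⟩ := h1
  have h2 := congrArg esize (List.take_append_drop i A)
  have h3 := congrArg esize (List.take_append_drop k L)
  simp only [esize_append] at h2 h3 ⊢
  omega

theorem esize_spl_getD (A L : List Str) : esize ((spl A L).getD A) ≤ esize A + esize L := by
  rcases e : spl A L with _ | A'
  · simp
  · exact (esize_spl e).le

theorem pt_absStep {st : α → List Str × List (List Str)} {L : α → List Str} (hst : PT ∅ st)
    (hL : PT ∅ L) : PT ∅ (fun a => absStep (st a) (L a)) := by
  refine (PT.optCase (o := fun a => spl (st a).1 (L a)) (f := fun a => ((st a).1, L a :: (st a).2))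
    (g := fun a A' => (A', (st a).2)) (pt_spl hst.fst hL) (hst.fst.pair (PT.cons hL hst.snd))
    (PT.snd'.pair (hst.snd.comp PT.fst'))).congr fun a => ?_
  unfold absStep
  rcases spl (st a).1 (L a) with _ | A' <;> rfl

theorem esize_foldl_absStep (K : List (List Str)) (st : List Str × List (List Str)) :
    esize (K.foldl absStep st).1 + esize (K.foldl absStep st).2 ≤
      esize st.1 + esize st.2 + esize K ∧
    esize (K.foldl absStep st).2 ≤ esize st.2 + esize K := by
  induction K generalizing st with
  | nil => simp [esize_list_nil]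
  | cons L K ih =>
    have h := ih (absStep st L)
    have h1 : esize (absStep st L).1 + esize (absStep st L).2 ≤
        esize st.1 + esize st.2 + (2 * esize L + 1) ∧
        esize (absStep st L).2 ≤ esize st.2 + (2 * esize L + 1) := by
      unfold absStep
      rcases e : spl st.1 L with _ | A'
      · simp only [esize_list_cons]
        omega
      · have := esize_spl e
        simp only
        omega
    rw [List.foldl_cons, esize_list_cons]
    omega

theorem esize_absorb (A : List Str) (K : List (List Str)) :
    esize (absorb A K).1 + esize (absorb A K).2 ≤ esize A + esize K ∧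
    esize (absorb A K).2 ≤ esize K := by
  have := esize_foldl_absStep K (A, [])
  simp only [esize_list_nil] at this
  unfold absorb
  omega

theorem pt_absorb {A : α → List Str} {K : α → List (List Str)} (hA : PT ∅ A) (hK : PT ∅ K) :
    PT ∅ (fun a => absorb (A a) (K a)) := by
  refine PT.foldl (f := fun _ st L => absStep st L) (init := fun a => (A a, [])) hK
    (hA.pair (PT.const [])) (pt_absStep PT.snd'.fst PT.snd'.snd)
    (b := fun a => 2 * (esize (A a) + esize (K a)) + 1)
    (((PBd.const 2).mul (hA.pbd.add hK.pbd)).add (PBd.const 1)) fun a i => ?_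
  have h := esize_absorb (A a) ((K a).take i)
  have h1 := esize_take_le i (K a)
  have h2 := esize_pair (absorb (A a) ((K a).take i)).1 (absorb (A a) ((K a).take i)).2
  simp only [Prod.mk.eta] at h2
  show esize (absorb (A a) ((K a).take i)) ≤ _
  omega

end Vale.Agent.P333
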