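import Vale.Agent.P333.Alg
import Vale.Agent.P333.Defs

/-!
Specifications used in the correctness proof of the algorithm.
-/

namespace Vale.Agent.P333

/-- Properties of the tokens of an instance. -/
structure TokOK (S Z : List Str) : Prop where
  mem : ∀ z ∈ Z, z ≠ [] ∧ ∃ s ∈ S, z <:+: s
  sorted : Z.Pairwise fun a b => b.length ≤ a.length
  one : ∀ u, u ≠ [] → (∃ s ∈ S, u <:+: s) → 1 ≤ cnt Z u
  bal : ∀ u, cntT Z u ≤ cnt Z u
  rule : ∀ u v, u ≠ [] → rule Z u v ≤ cnt Z u

/-- A nonempty closed walk. -/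
def Closed (L : List Str) : Prop := L ≠ [] ∧ ∃ w, Walk w L w

/-- `w` is a node of the walk `A` from the empty string to itself. -/
def ANode (A : List Str) (w : Str) : Prop :=
  ∃ A1 A2, A = A1 ++ A2 ∧ Walk [] A1 w ∧ Walk w A2 []

/-- `w` is a node of the closed walk `L`. -/
def LNode (L : List Str) (w : Str) : Prop :=
  ∃ L1 L2, L = L1 ++ L2 ∧ L2 ≠ [] ∧ Walk w (L2 ++ L1) w

/-- Invariant of the main loop: `Ls` are all the layers, the state consists of the main walk and
the layers that are not yet connected. -/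
structure Inv (Ls : List (List Str)) (st : List Str × List (List Str)) : Prop where
  walk : Walk [] st.1 []
  ne : ∀ z ∈ st.1, z ≠ []
  conn : ∃ C, Ls.Perm (C ++ st.2) ∧ ∀ L ∈ C, ∀ w, LNode L w → ANode st.1 w
  len : st.1.length + 2 * st.2.flatten.length ≤ 2 * Ls.flatten.length

end Vale.Agent.P333
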