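import Vale.Agent.P333.Spec

/-!
Walks, nodes, and the insertion of closed walks in the main walk.
-/

namespace Vale.Agent.P333

/-- The current string after the tokens `L`. -/
def lo : Str → List Str → Str
  | a, [] => a
  | _, z :: L => lo z.tail L

theorem lo_append (a : Str) (L M : List Str) : lo a (L ++ M) = lo (lo a L) M := by
  induction L generalizing a with
  | nil => rfl
  | cons z L ih => exact ih _

theorem lo_of_ne_nil (a b : Str) {L : List Str} (h : L ≠ []) : lo a L = lo b L := by
  cases L with
  | nil => exact absurd rfl h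
  | cons z L => rfl

theorem headD_append (L M : List Str) (b : Str) : (L ++ M).headD b = L.headD (M.headD b) := by
  cases L <;> rfl

theorem headD_of_ne_nil (a b : Str) {L : List Str} (h : L ≠ []) : L.headD a = L.headD b := by
  cases L with
  | nil => exact absurd rfl h
  | cons z L => rfl

theorem Walk.lo_prefix {a b : Str} {L : List Str} (h : Walk a L b) : lo a L <+: b := by
  induction L generalizing a with
  | nil => exact h
  | cons z L ih => exact ih h.2

theorem Walk.change_end {a b b' : Str} {L : List Str} (h : Walk a L b) (hb : lo a L <+: b') :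
    Walk a L b' := by
  induction L generalizing a with
  | nil => exact hb
  | cons z L ih => exact ⟨h.1, ih h.2 hb⟩

theorem Walk.prefix_head {a b : Str} {L : List Str} (h : Walk a L b) : a <+: L.headD b := by
  cases L with
  | nil => exact h
  | cons z L => exact h.1

theorem Walk.change_start {a a' b : Str} {L : List Str} (h : Walk a L b)
    (ha : a' <+: L.headD b) : Walk a' L b := by
  cases L with
  | nil => exact ha
  | cons z L => exact ⟨ha, h.2⟩

theorem Walk.mono_left {a a' b : Str} {L : List Str} (h : Walk a L b) (ha : a' <+: a) :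
    Walk a' L b :=
  h.change_start (ha.trans h.prefix_head)

theorem Walk.mono_right {a b b' : Str} {L : List Str} (h : Walk a L b) (hb : b <+: b') :
    Walk a L b' :=
  h.change_end (h.lo_prefix.trans hb)

theorem Walk.append {a w b : Str} {L M : List Str} (h1 : Walk a L w) (h2 : Walk w M b) :
    Walk a (L ++ M) b := by
  induction L generalizing a with
  | nil => exact h2.mono_left h1
  | cons z L ih => exact ⟨h1.1, ih h1.2⟩

theorem Walk.of_append {a b : Str} {L M : List Str} (h : Walk a (L ++ M) b) :
    Walk a L (lo a L) ∧ Walk (lo a L) M b := by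
  induction L generalizing a with
  | nil => exact ⟨List.prefix_refl _, h⟩
  | cons z L ih => exact ⟨⟨h.1, (ih h.2).1⟩, (ih h.2).2⟩

theorem walk_append_iff {a b : Str} {L M : List Str} :
    Walk a (L ++ M) b ↔ ∃ w, Walk a L w ∧ Walk w M b :=
  ⟨fun h => ⟨_, h.of_append⟩, fun ⟨_, h1, h2⟩ => h1.append h2⟩

theorem walk_zip_iff (a b : Str) (L : List Str) :
    (((a :: L.map List.tail).zip (L ++ [b])).all fun p => decide (p.1 <+: p.2)) = true ↔
      Walk a L b := by
  induction L generalizing a with
  | nil => simp [Walk]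
  | cons z L ih =>
    have := ih z.tail
    simp only [List.map_cons, List.cons_append, List.zip_cons_cons, List.all_cons,
      Bool.and_eq_true, decide_eq_true_eq, Walk] at this ⊢
    rw [this]

theorem walkB_iff (L : List Str) : walkB L = true ↔ Walk [] L [] :=
  walk_zip_iff [] [] L

/-- A rotation of a closed walk is a closed walk. -/
theorem Walk.rotate {w : Str} {L M : List Str} (h : Walk w (L ++ M) w) :
    ∃ v, Walk v (M ++ L) v :=
  ⟨_, h.of_append.2.append h.of_append.1⟩

theorem LNode.closed {L : List Str} {w : Str} (h : LNode L w) : Closed L := by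
  obtain ⟨L1, L2, rfl, hne, hw⟩ := h
  exact ⟨by simp [hne], hw.rotate⟩

/-- The tokens of a closed walk are nodes. -/
theorem Closed.lnode_of_mem {L : List Str} (h : Closed L) {z : Str} (hz : z ∈ L) : LNode L z := by
  obtain ⟨L1, L2, rfl⟩ := List.append_of_mem hz
  obtain ⟨w, hw⟩ := h.2
  obtain ⟨v, hv⟩ := hw.rotate
  refine ⟨L1, z :: L2, rfl, by simp, ?_⟩
  exact (hv.change_start (a' := z) (List.prefix_refl _)).mono_right hv.1

/-- An old node in the gap where the closed walk is inserted stays a node. -/
theorem gap_old {a b w v : Str} {A1 R A2 : List Str} (h : Walk a (A1 ++ R ++ A2) b) (hR : R ≠ [])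
    (hw : Walk w R w) (h1 : Walk a A1 v) (h2 : Walk v A2 b) :
    (Walk a A1 v ∧ Walk v (R ++ A2) b) ∨ (Walk a (A1 ++ R) v ∧ Walk v A2 b) := by
  have hx := h.of_append
  rcases List.prefix_or_prefix_of_prefix hx.2.prefix_head h2.prefix_head with hp | hp
  · exact Or.inr ⟨hx.1.mono_right hp, h2⟩
  · left
    refine ⟨h1, ?_⟩
    rw [List.append_assoc] at h
    refine h.of_append.2.change_start ?_
    rw [lo_append, lo_of_ne_nil _ w hR] at hp
    rw [headD_append, headD_of_ne_nil _ w hR]
    exact hp.trans (hw.lo_prefix.trans hw.prefix_head)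

/-- A node of the inserted closed walk at the place where it is cut stays a node. -/
theorem gap_new {a b v : Str} {A1 R A2 : List Str} (h : Walk a (A1 ++ R ++ A2) b) (hR : R ≠ [])
    (hA : Walk a (A1 ++ A2) b) (hv : Walk v R v) :
    (Walk a A1 v ∧ Walk v (R ++ A2) b) ∨ (Walk a (A1 ++ R) v ∧ Walk v A2 b) := by
  have hx := h.of_append
  rw [List.append_assoc] at h
  have hy := h.of_append
  have h1 : v <+: (R ++ A2).headD b := by
    rw [headD_append, headD_of_ne_nil _ v hR]
    exact hv.prefix_head
  rcases List.prefix_or_prefix_of_prefix hy.2.prefix_head h1 with hp | hp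
  · exact Or.inl ⟨hy.1.mono_right hp, hy.2.change_start h1⟩
  · right
    refine ⟨hx.1.change_end ?_, hA.of_append.2.mono_left hp⟩
    rw [lo_append, lo_of_ne_nil _ v hR]
    exact hv.lo_prefix

theorem anode_insert_old {w v : Str} {A1 R A2 : List Str} (h : Walk [] (A1 ++ R ++ A2) [])
    (hR : R ≠ []) (hw : Walk w R w) (hv : ANode (A1 ++ A2) v) : ANode (A1 ++ R ++ A2) v := by
  obtain ⟨B1, B2, hB, h1, h2⟩ := hv
  have key : A1 = B1 → A2 = B2 → ANode (A1 ++ R ++ A2) v := by
    rintro rfl rfl
    rcases gap_old h hR hw h1 h2 with ⟨h3, h4⟩ | ⟨h3, h4⟩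
    · exact ⟨A1, R ++ A2, by simp, h3, h4⟩
    · exact ⟨A1 ++ R, A2, rfl, h3, h4⟩
  rcases List.append_eq_append_iff.1 hB with ⟨M, rfl, rfl⟩ | ⟨M, rfl, rfl⟩
  · by_cases hM : M = []
    · subst hM
      exact key (by simp) (by simp)
    · refine ⟨A1 ++ R ++ M, B2, by simp, ?_, h2⟩
      rw [← List.append_assoc] at h
      refine h.of_append.1.change_end ?_
      have := h1.lo_prefix
      rw [lo_append] at this ⊢
      rwa [lo_of_ne_nil _ (lo [] A1) hM]
  · by_cases hM : M = []
    · subst hM
      exact key (by simp) (by simp)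
    · refine ⟨B1, M ++ R ++ A2, by simp, h1, ?_⟩
      rw [List.append_assoc, List.append_assoc] at h
      rw [List.append_assoc]
      refine h.of_append.2.change_start ?_
      have := h2.prefix_head
      rw [headD_append] at this ⊢
      rwa [headD_of_ne_nil _ (A2.headD []) hM]

theorem anode_insert_new {v : Str} {A1 R1 R2 A2 : List Str}
    (h : Walk [] (A1 ++ (R1 ++ R2) ++ A2) []) (hR : R1 ++ R2 ≠ [])
    (hA : Walk [] (A1 ++ A2) []) (hv : Walk v (R2 ++ R1) v) :
    ANode (A1 ++ (R1 ++ R2) ++ A2) v := by
  have key : R2 ++ R1 = R1 ++ R2 → ANode (A1 ++ (R1 ++ R2) ++ A2) v := by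
    intro he
    rw [he] at hv
    rcases gap_new h hR hA hv with ⟨h3, h4⟩ | ⟨h3, h4⟩
    · exact ⟨A1, (R1 ++ R2) ++ A2, by simp, h3, h4⟩
    · exact ⟨A1 ++ (R1 ++ R2), A2, rfl, h3, h4⟩
  by_cases h1 : R1 = []
  · exact key (by simp [h1])
  by_cases h2 : R2 = []
  · exact key (by simp [h2])
  have he : A1 ++ (R1 ++ R2) ++ A2 = (A1 ++ R1) ++ (R2 ++ A2) := by simp
  rw [he] at h
  refine ⟨A1 ++ R1, R2 ++ A2, he, h.of_append.1.change_end ?_, h.of_append.2.change_start ?_⟩
  · have := hv.lo_prefix
    rw [lo_append] at this ⊢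
    rwa [lo_of_ne_nil _ (lo v R2) h1]
  · have := hv.prefix_head
    rw [headD_append] at this ⊢
    rwa [headD_of_ne_nil _ (R1.headD v) h2]

theorem mem_splices {A L A' : List Str} :
    A' ∈ splices A L ↔ ∃ i, i ≤ A.length ∧ ∃ k, k < L.length ∧
      A.take i ++ (L.drop k ++ L.take k) ++ A.drop i = A' := by
  simp only [splices, List.mem_flatMap, List.mem_range, List.mem_map, Nat.lt_succ_iff]

theorem spl_some {A L A' : List Str} (hA : Walk [] A []) (hL : Closed L) (h : spl A L = some A') :
    Walk [] A' [] ∧ A'.Perm (A ++ L) ∧ (∀ w, ANode A w → ANode A' w) ∧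
      ∀ w, LNode L w → ANode A' w := by
  have hw : Walk [] A' [] := (walkB_iff A').1 (List.find?_some h)
  obtain ⟨i, -, k, hk, rfl⟩ := mem_splices.1 (List.mem_of_find?_eq_some h)
  have hne : L.drop k ++ L.take k ≠ [] := by
    intro he
    have := congrArg List.length he
    simp at this
    omega
  refine ⟨hw, ?_, fun w hw' => ?_, fun w hw' => ?_⟩
  · have h1 : (L.drop k ++ L.take k).Perm L := by
      conv_rhs => rw [← List.take_append_drop k L]
      exact List.perm_append_comm
    have h2 : (A.take i ++ (L.drop k ++ L.take k) ++ A.drop i).Perm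
        (A.take i ++ A.drop i ++ (L.drop k ++ L.take k)) := by
      rw [List.append_assoc (A.take i), List.append_assoc (A.take i)]
      exact List.Perm.append_left _ List.perm_append_comm
    rw [List.take_append_drop] at h2
    exact h2.trans (List.Perm.append_left _ h1)
  · obtain ⟨v, hv⟩ := hL.2
    rw [← List.take_append_drop k L] at hv
    obtain ⟨u, hu⟩ := hv.rotate
    refine anode_insert_old hw hne hu ?_
    rwa [List.take_append_drop]
  · obtain ⟨L1, L2, he, -, hv⟩ := hw'
    have hA' : Walk [] (A.take i ++ A.drop i) [] := by rwa [List.take_append_drop]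
    have he' : L.take k ++ L.drop k = L1 ++ L2 := by rw [List.take_append_drop, he]
    generalize L.take k = T at *
    generalize L.drop k = D at *
    rcases List.append_eq_append_iff.1 he' with ⟨M, rfl, rfl⟩ | ⟨M, rfl, rfl⟩
    · have e : M ++ L2 ++ T = M ++ (L2 ++ T) := by simp
      rw [e] at hw hne ⊢
      refine anode_insert_new hw hne hA' ?_
      rwa [List.append_assoc]
    · have e : D ++ (L1 ++ M) = (D ++ L1) ++ M := by simp
      rw [e] at hw hne ⊢
      refine anode_insert_new hw hne hA' ?_
      rwa [← List.append_assoc]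

theorem spl_isSome {A L : List Str} {w : Str} (hA : ANode A w) (hL : LNode L w) :
    (spl A L).isSome = true := by
  obtain ⟨A1, A2, rfl, h1, h2⟩ := hA
  obtain ⟨L1, L2, rfl, hne, h3⟩ := hL
  rw [spl, List.find?_isSome]
  refine ⟨A1 ++ (L2 ++ L1) ++ A2, mem_splices.2 ⟨A1.length, by simp, L1.length, ?_, by simp⟩,
    (walkB_iff _).2 ((h1.append h3).append h2)⟩
  have := List.length_pos_iff.2 hne
  simp only [List.length_append]
  omega

theorem foldl_absStep_ok (K : List (List Str)) (hK : ∀ L ∈ K, Closed L)
    (st : List Str × List (List Str)) (hA : Walk [] st.1 []) :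
    ∃ D, (K ++ st.2).Perm (D ++ (K.foldl absStep st).2) ∧ Walk [] (K.foldl absStep st).1 [] ∧
      (K.foldl absStep st).1.Perm (st.1 ++ D.flatten) ∧
      (∀ w, ANode st.1 w → ANode (K.foldl absStep st).1 w) ∧
      (∀ L ∈ D, ∀ w, LNode L w → ANode (K.foldl absStep st).1 w) ∧
      ∀ L ∈ (K.foldl absStep st).2, L ∈ st.2 ∨ ∀ w, LNode L w → ¬ ANode st.1 w := by
  induction K generalizing st with
  | nil =>
    exact ⟨[], by simp, hA, by simp, fun _ h => h, by simp, fun L hL => Or.inl hL⟩
  | cons L K ih =>
    have hK' : ∀ M ∈ K, Closed M := fun M hM => hK M (List.mem_cons_of_mem _ hM)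
    rw [List.foldl_cons]
    cases hs : spl st.1 L with
    | none =>
      have e : absStep st L = (st.1, L :: st.2) := by simp [absStep, hs]
      rw [e]
      obtain ⟨D, h1, h2, h3, h4, h5, h6⟩ := ih hK' (st.1, L :: st.2) hA
      refine ⟨D, List.perm_middle.symm.trans h1, h2, h3, h4, h5, fun M hM => ?_⟩
      rcases h6 M hM with h | h
      · rcases List.mem_cons.1 h with rfl | h
        · refine Or.inr fun w hw hw' => ?_
          have := spl_isSome hw' hw
          rw [hs] at this
          exact absurd this (by simp)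
        · exact Or.inl h
      · exact Or.inr h
    | some A' =>
      have e : absStep st L = (A', st.2) := by simp [absStep, hs]
      rw [e]
      obtain ⟨g1, g2, g3, g4⟩ := spl_some hA (hK L List.mem_cons_self) hs
      obtain ⟨D, h1, h2, h3, h4, h5, h6⟩ := ih hK' (A', st.2) g1
      refine ⟨L :: D, h1.cons L, h2, ?_, fun w hw => h4 w (g3 w hw), fun M hM w hw => ?_,
        fun M hM => ?_⟩
      · rw [List.flatten_cons, ← List.append_assoc]
        exact h3.trans (g2.append_right _)
      · rcases List.mem_cons.1 hM with rfl | hM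
        · exact h4 w (g4 w hw)
        · exact h5 M hM w hw
      · exact (h6 M hM).imp_right fun h w hw hw' => h w hw (g3 w hw')

theorem absorb_ok {A : List Str} {K : List (List Str)} (hA : Walk [] A [])
    (hK : ∀ L ∈ K, Closed L) :
    ∃ D, K.Perm (D ++ (absorb A K).2) ∧ Walk [] (absorb A K).1 [] ∧
      (absorb A K).1.Perm (A ++ D.flatten) ∧ (∀ w, ANode A w → ANode (absorb A K).1 w) ∧
      (∀ L ∈ D, ∀ w, LNode L w → ANode (absorb A K).1 w) ∧
      ∀ L ∈ (absorb A K).2, ∀ w, LNode L w → ¬ ANode A w := by
  obtain ⟨D, h1, h2, h3, h4, h5, h6⟩ := foldl_absStep_ok K hK (A, []) hA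
  refine ⟨D, by simpa [absorb] using h1, h2, h3, h4, h5, fun L hL => ?_⟩
  exact (h6 L hL).resolve_left (by simp)

theorem Walk.prefix_heads {w : Str} {L : List Str} (hne : ∀ z ∈ L, z ≠ []) (h : Walk w L []) :
    w <+: L.map fun z => z.headD 0 := by
  induction L generalizing w with
  | nil => exact h
  | cons z L ih =>
    refine h.1.trans ?_
    have h2 := ih (fun y hy => hne y (List.mem_cons_of_mem _ hy)) h.2
    cases z with
    | nil => exact absurd rfl (hne _ List.mem_cons_self)
    | cons a z => exact List.cons_prefix_cons.2 ⟨rfl, h2⟩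

theorem ANode.isInfix {A : List Str} {w : Str} (hne : ∀ z ∈ A, z ≠ []) (h : ANode A w) :
    w <:+: A.map fun z => z.headD 0 := by
  obtain ⟨A1, A2, rfl, -, h2⟩ := h
  rw [List.map_append]
  exact (h2.prefix_heads fun z hz => hne z (List.mem_append_right _ hz)).isInfix.trans
    (List.suffix_append _ _).isInfix

end Vale.Agent.P333
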