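import Vale.Agent.P333.Spec
import Mathlib.Tactic

/-!
The tokens satisfy all the constraints that define them.
-/

namespace Vale.Agent.P333

theorem mem_subs {S : List Str} {w : Str} : w ∈ subs S ↔ w ≠ [] ∧ ∃ s ∈ S, w <:+: s := by
  unfold subs
  simp only [List.mem_flatMap, List.mem_reverse, List.mem_range, List.mem_filter, List.mem_map,
    decide_eq_true_eq]
  constructor
  · rintro ⟨n, -, s, hs, ⟨i, -, rfl⟩, hl⟩
    refine ⟨fun h => by simp [h] at hl, s, hs, ?_⟩
    exact (List.take_prefix _ _).isInfix.trans (List.drop_suffix _ _).isInfix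
  · rintro ⟨hw, s, hs, a, b, rfl⟩
    have hpos : 0 < w.length := List.length_pos_iff.mpr hw
    have hle : (a ++ w ++ b).length ≤ S.flatten.length :=
      (List.infix_of_mem_flatten hs).length_le
    simp only [List.length_append] at hle
    refine ⟨w.length - 1, by omega, _, hs, ⟨a.length, ?_, ?_⟩, by omega⟩
    · simp only [List.length_append]; omega
    · rw [Nat.sub_add_cancel hpos, List.append_assoc, List.drop_left, List.take_left]

theorem subs_sorted (S : List Str) : (subs S).Pairwise fun a b => b.length ≤ a.length := by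
  unfold subs
  rw [List.pairwise_flatMap]
  constructor
  · intro n _
    refine List.pairwise_of_forall_mem_list fun a ha b hb => ?_
    simp only [List.mem_flatMap, List.mem_filter, decide_eq_true_eq] at ha hb
    obtain ⟨_, _, _, h1⟩ := ha
    obtain ⟨_, _, _, h2⟩ := hb
    omega
  · rw [List.pairwise_reverse]
    refine List.pairwise_lt_range.imp fun {m n} h a ha b hb => ?_
    simp only [List.mem_flatMap, List.mem_filter, decide_eq_true_eq] at ha hb
    obtain ⟨_, _, _, h1⟩ := ha
    obtain ⟨_, _, _, h2⟩ := hb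
    omega

theorem mem_pairs {S : List Str} {uv : Str × Str} :
    uv ∈ pairs S ↔ uv.1 ∈ subs S ∧ uv.2 ∈ subs S := by
  unfold pairs
  simp only [List.mem_flatMap, List.mem_map]
  constructor
  · rintro ⟨u, hu, v, hv, rfl⟩
    exact ⟨hu, hv⟩
  · rintro ⟨hu, hv⟩
    exact ⟨_, hu, _, hv, rfl⟩

theorem pairs_sorted (S : List Str) :
    (pairs S).Pairwise fun a b => b.1.length ≤ a.1.length := by
  unfold pairs
  rw [List.pairwise_flatMap]
  constructor
  · intro u _
    refine List.pairwise_of_forall_mem_list fun a ha b hb => ?_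
    obtain ⟨_, _, rfl⟩ := List.mem_map.mp ha
    obtain ⟨_, _, rfl⟩ := List.mem_map.mp hb
    exact le_rfl
  · refine (subs_sorted S).imp fun {u u'} h a ha b hb => ?_
    obtain ⟨_, _, rfl⟩ := List.mem_map.mp ha
    obtain ⟨_, _, rfl⟩ := List.mem_map.mp hb
    exact h

theorem cnt_append (Z Z' : List Str) (v : Str) : cnt (Z ++ Z') v = cnt Z v + cnt Z' v := by
  simp [cnt]

theorem cntT_append (Z Z' : List Str) (v : Str) : cntT (Z ++ Z') v = cntT Z v + cntT Z' v := by
  simp [cntT]

theorem hid_append (Z Z' : List Str) (v : Str) (p j : ℕ) :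
    hid (Z ++ Z') v p j = hid Z v p j + hid Z' v p j := by
  simp [hid]

theorem cnt_eq_zero {Z : List Str} {v : Str} (h : ∀ z ∈ Z, z.length < v.length) : cnt Z v = 0 := by
  unfold cnt
  rw [List.countP_eq_zero]
  intro z hz hp
  have := (of_decide_eq_true hp).length_le
  have := h z hz
  omega

theorem cntT_eq_zero {Z : List Str} {v : Str} (hv : v ≠ []) (h : ∀ z ∈ Z, z.length ≤ v.length) :
    cntT Z v = 0 := by
  unfold cntT
  rw [List.countP_eq_zero]
  intro z hz hp
  have h1 := (of_decide_eq_true hp).length_le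
  have h2 := h z hz
  have h3 : 0 < v.length := List.length_pos_iff.mpr hv
  rw [List.length_tail] at h1
  omega

theorem hidB_iff {v : Str} {p j : ℕ} {z : Str} {k : ℕ} : hidB v p j z k = true ↔
    1 ≤ k ∧ k + j ≤ z.length ∧ z.getD 0 0 ≠ ext v p k 0 ∧
      (∀ l < z.length, 1 ≤ l → l < k + j → z.getD l 0 = ext v p k l) ∧
      ∃ l < z.length, 1 ≤ l ∧ z.getD l 0 ≠ ext v p k l := by
  unfold hidB
  simp only [Bool.and_eq_true, decide_eq_true_eq, List.all_eq_true, List.mem_range,
    Bool.or_eq_true, List.any_eq_true, and_assoc]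
  refine and_congr_right fun _ => and_congr_right fun _ => and_congr_right fun _ =>
    and_congr_left fun _ => ⟨fun h l hl h1 h2 => ?_, fun h l hl => ?_⟩
  · rcases h l hl with (h | h) | h
    · omega
    · omega
    · exact h
  · by_cases h1 : l = 0
    · exact Or.inl (Or.inl h1)
    · by_cases h2 : k + j ≤ l
      · exact Or.inl (Or.inr h2)
      · exact Or.inr (h l hl (by omega) (by omega))

theorem hid_eq_zero {Z : List Str} {v : Str} {p j : ℕ} (h : ∀ z ∈ Z, z.length ≤ j) :
    hid Z v p j = 0 := by
  unfold hid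
  rw [List.sum_eq_zero_iff]
  intro n hn
  obtain ⟨z, hz, rfl⟩ := List.mem_map.mp hn
  rw [List.countP_eq_zero]
  intro k _ hk
  obtain ⟨h1, h2, -⟩ := hidB_iff.mp hk
  have := h z hz
  omega

theorem rule_append {Z Z' : List Str} {u : Str} (v : Str) (h : ∀ z ∈ Z', z.length ≤ u.length) :
    rule (Z ++ Z') u v = rule Z u v := by
  unfold rule
  by_cases huv : u.length < v.length
  · have h1 : cnt (Z ++ Z') v = cnt Z v := by
      rw [cnt_append, cnt_eq_zero (Z := Z') fun z hz => (h z hz).trans_lt huv, Nat.add_zero]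
    have h2 : ∀ p, hid (Z ++ Z') v p v.length = hid Z v p v.length := fun p => by
      rw [hid_append, hid_eq_zero (Z := Z') fun z hz => (h z hz).trans huv.le, Nat.add_zero]
    have h3 : ∀ p, hid (Z ++ Z') v p u.length = hid Z v p u.length := fun p => by
      rw [hid_append, hid_eq_zero (Z := Z') h, Nat.add_zero]
    rw [h1, h2, h3]
  · simp [huv]

theorem req_append {Z Z' : List Str} {u : Str} (v : Str) (hu : u ≠ [])
    (h : ∀ z ∈ Z', z.length ≤ u.length) : req (Z ++ Z') u v = req Z u v := by
  unfold req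
  rw [rule_append v h, cntT_append, cntT_eq_zero (Z := Z') hu h, Nat.add_zero]

theorem cnt_replicate (c : ℕ) (u : Str) : cnt (List.replicate c u) u = c := by
  simp [cnt, List.countP_replicate]

theorem foldl_addTok_mem (l : List (Str × Str)) :
    ∀ z ∈ l.foldl addTok [], ∃ uv ∈ l, z = uv.1 := by
  induction l using List.reverseRecOn with
  | nil => simp
  | append_singleton l uv ih =>
    intro z hz
    rw [List.foldl_append, List.foldl_cons, List.foldl_nil, addTok, List.mem_append] at hz
    rcases hz with hz | hz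
    · obtain ⟨a, ha, rfl⟩ := ih z hz
      exact ⟨a, by simp [ha], rfl⟩
    · exact ⟨uv, by simp, List.eq_of_mem_replicate hz⟩

theorem foldl_addTok_sorted {l : List (Str × Str)}
    (hl : l.Pairwise fun a b => b.1.length ≤ a.1.length) :
    (l.foldl addTok []).Pairwise fun a b => b.length ≤ a.length := by
  induction l using List.reverseRecOn with
  | nil => simp
  | append_singleton l uv ih =>
    rw [List.pairwise_append] at hl
    rw [List.foldl_append, List.foldl_cons, List.foldl_nil, addTok, List.pairwise_append]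
    refine ⟨ih hl.1, List.pairwise_of_forall_mem_list fun a ha b hb => ?_, fun a ha b hb => ?_⟩
    · rw [List.eq_of_mem_replicate ha, List.eq_of_mem_replicate hb]
    · obtain ⟨c, hc, rfl⟩ := foldl_addTok_mem l a ha
      rw [List.eq_of_mem_replicate hb]
      exact hl.2.2 c hc uv (by simp)

theorem foldl_addTok_req {l : List (Str × Str)}
    (hl : l.Pairwise fun a b => b.1.length ≤ a.1.length) :
    ∀ uv ∈ l, uv.1 ≠ [] → req (l.foldl addTok []) uv.1 uv.2 ≤ cnt (l.foldl addTok []) uv.1 := by
  induction l using List.reverseRecOn with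
  | nil => simp
  | append_singleton l c ih =>
    rw [List.pairwise_append] at hl
    intro uv huv hne
    rw [List.foldl_append, List.foldl_cons, List.foldl_nil, addTok, cnt_append]
    rcases List.mem_append.mp huv with h | h
    · rw [req_append _ hne fun z hz => by
        rw [List.eq_of_mem_replicate hz]; exact hl.2.2 uv h c (by simp)]
      exact (ih hl.1 uv h hne).trans (Nat.le_add_right _ _)
    · obtain rfl := List.mem_singleton.mp h
      rw [req_append _ hne fun z hz => by rw [List.eq_of_mem_replicate hz], cnt_replicate]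
      omega

theorem exists_of_cnt_pos {Z : List Str} {v : Str} (h : 0 < cnt Z v) : ∃ z ∈ Z, v <+: z := by
  obtain ⟨z, hz, hp⟩ := List.countP_pos_iff.mp h
  exact ⟨z, hz, of_decide_eq_true hp⟩

theorem tokens_ok (S : List Str) : TokOK S (tokens S) := by
  have hmem : ∀ z ∈ tokens S, z ≠ [] ∧ ∃ s ∈ S, z <:+: s := fun z hz => by
    obtain ⟨uv, huv, rfl⟩ := foldl_addTok_mem _ z hz
    exact mem_subs.mp (mem_pairs.mp huv).1
  have hreq : ∀ u v, u ∈ subs S → v ∈ subs S → req (tokens S) u v ≤ cnt (tokens S) u :=
    fun u v hu hv => foldl_addTok_req (pairs_sorted S) (u, v) (mem_pairs.mpr ⟨hu, hv⟩)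
      (mem_subs.mp hu).1
  refine ⟨hmem, foldl_addTok_sorted (pairs_sorted S), fun u hu hs => ?_, fun u => ?_,
    fun u v hu => ?_⟩
  · have hu' := mem_subs.mpr ⟨hu, hs⟩
    exact ((le_max_left _ _).trans (le_max_left _ _)).trans (hreq u u hu' hu')
  · by_cases hu : u = []
    · subst hu
      simp [cnt, cntT]
    · rcases Nat.eq_zero_or_pos (cntT (tokens S) u) with h | h
      · omega
      · obtain ⟨z, hz, hp⟩ := List.countP_pos_iff.mp h
        obtain ⟨-, s, hs, hzs⟩ := hmem z hz
        have hu' : u ∈ subs S := mem_subs.mpr ⟨hu, s, hs,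
          ((of_decide_eq_true hp).isInfix.trans (List.tail_suffix z).isInfix).trans hzs⟩
        exact ((le_max_right _ _).trans (le_max_left _ _)).trans (hreq u u hu' hu')
  · by_cases h : u.length < v.length ∧ u <+: v ∧ v.drop (v.length - u.length) <+: v ∧
        hid (tokens S) v (v.length - u.length) v.length < cnt (tokens S) v
    · obtain ⟨z, hz, hp⟩ := exists_of_cnt_pos (Nat.zero_lt_of_lt h.2.2.2)
      obtain ⟨-, s, hs, hzs⟩ := hmem z hz
      have hv' : v ∈ subs S := mem_subs.mpr ⟨fun h0 => by simp [h0] at h, s, hs,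
        hp.isInfix.trans hzs⟩
      have hu' : u ∈ subs S := mem_subs.mpr ⟨hu, s, hs,
        h.2.1.isInfix.trans (hp.isInfix.trans hzs)⟩
      exact (le_max_right _ _).trans (hreq u v hu' hv')
    · rw [rule, if_neg h]
      exact Nat.zero_le _

end Vale.Agent.P333
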